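import Vale.Agent.P372.H268.Core

open Matrix Kronecker
open scoped ComplexOrder MatrixOrder

set_option linter.unusedSectionVars false

namespace Vale.Agent.P372.LD

/-- The operator `P` is block diagonal with respect to the labels `la` of the systems in `S`. -/
def Blk {A κ : Type} {n : ℕ} (la : A → κ) (S : Set (Fin n)) (P : Matrix (Fin n → A) (Fin n → A) ℂ) :
    Prop := ∀ p q, (∃ i ∈ S, la (p i) ≠ la (q i)) → P p q = 0

theorem Blk.add {A κ : Type} {n : ℕ} {la : A → κ} {S : Set (Fin n)}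
    {P Q : Matrix (Fin n → A) (Fin n → A) ℂ} (hP : Blk la S P) (hQ : Blk la S Q) :
    Blk la S (P + Q) := fun p q h => by
  rw [Matrix.add_apply, hP p q h, hQ p q h, add_zero]

theorem sum_entries_nonneg {W : Type} [Fintype W] [DecidableEq W] {N : Matrix W W ℂ}
    (hN : N.PosSemidef) : 0 ≤ (∑ w, ∑ w', N w w').re := by
  have h := hN.dotProduct_mulVec_nonneg (fun _ => 1)
  have h2 : star (fun _ : W => (1 : ℂ)) ⬝ᵥ (N *ᵥ fun _ => 1) = ∑ w, ∑ w', N w w' := by
    simp [dotProduct, mulVec]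
  rw [h2] at h
  exact (Complex.le_def.mp h).1

theorem sum_four {W X : Type} [Fintype W] [Fintype X] (F : W × X → W × X → ℂ) :
    ∑ w, ∑ w', F w w' = ∑ z, ∑ z', ∑ p, ∑ q, F (z, p) (z', q) := by
  rw [Fintype.sum_prod_type]
  refine Finset.sum_congr rfl fun z _ => ?_
  rw [Finset.sum_comm]
  rw [Fintype.sum_prod_type]
  refine Finset.sum_congr rfl fun z' _ => ?_
  rw [Finset.sum_comm]

variable {A B : Type} [Fintype A] [DecidableEq A] [Fintype B] [DecidableEq B]

theorem trace_kron_mul (P : Matrix A A ℂ) (Q : Matrix B B ℂ) (Z : Matrix (A × B) (A × B) ℂ) :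
    ((P ⊗ₖ Q) * Z).trace = ∑ a, ∑ b, ∑ a', ∑ b', P a' a * Q b b' * Z (a, b') (a', b) := by
  have h1 : ((P ⊗ₖ Q) * Z).trace = ∑ a', ∑ b, ∑ a, ∑ b', P a' a * Q b b' * Z (a, b') (a', b) := by
    simp only [Matrix.trace, Matrix.diag, Matrix.mul_apply, Fintype.sum_prod_type,
      kroneckerMap_apply]
  rw [h1]
  calc ∑ a', ∑ b, ∑ a, ∑ b', P a' a * Q b b' * Z (a, b') (a', b)
      = ∑ a', ∑ a, ∑ b, ∑ b', P a' a * Q b b' * Z (a, b') (a', b) :=
        Finset.sum_congr rfl fun a' _ => Finset.sum_comm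
    _ = ∑ a, ∑ a', ∑ b, ∑ b', P a' a * Q b b' * Z (a, b') (a', b) := Finset.sum_comm
    _ = _ := Finset.sum_congr rfl fun a _ => Finset.sum_comm

variable {L κ κ' : Type} [Fintype L] [DecidableEq L] {n : ℕ}

theorem contr (σ K : L → Matrix (A × B) (A × B) ℂ) {U V : Matrix (L × (A × B)) (L × (A × B)) ℂ}
    (hU : U.PosSemidef) (hV : V.PosSemidef) (la : A → κ) (lb : B → κ')
    (hD : ∀ z z' a b a' b', (la a = la a' ∨ lb b = lb b') →
      (U + V) (z, (a, b)) (z', (a', b')) = if z = z' then σ z (a, b') (a', b) else 0)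
    (hH : ∀ z z' a b a' b', (la a = la a' ∨ lb b = lb b') →
      (U - V) (z, (a, b)) (z', (a', b')) = (σ z * K z') (a, b') (a', b))
    {P : Matrix (Fin n → A) (Fin n → A) ℂ} {Q : Matrix (Fin n → B) (Fin n → B) ℂ}
    (hP : P.PosSemidef) (hQ : Q.PosSemidef)
    (hPQ : ∀ a b a' b', (∃ i, la (a i) ≠ la (a' i) ∧ lb (b i) ≠ lb (b' i)) →
      P a' a * Q b b' = 0) (c : (Fin n → L) → ℝ) :
    ∑ z, ∑ z', c z * c z' * ((P ⊗ₖ Q) * (tp (fun i => σ (z i)) * tp (fun i => K (z' i)))).trace.re ≤
      ∑ z, c z ^ 2 * ((P ⊗ₖ Q) * tp (fun i => σ (z i))).trace.re := by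
  classical
  -- the positive semidefinite matrix
  let e : (Fin n → L) × ((Fin n → A) × (Fin n → B)) → (Fin n → L × (A × B)) :=
    fun w i => (w.1 i, (w.2.1 i, w.2.2 i))
  have hN : ((piT (fun _ : Fin n => U + V) - piT (fun _ : Fin n => U - V)).submatrix e e).PosSemidef :=
    (piT_add_sub _ _ (fun _ => hU) fun _ => hV).submatrix e
  have hP' : (Pᵀ.submatrix (fun w : (Fin n → L) × ((Fin n → A) × (Fin n → B)) => w.2.1)
      (fun w => w.2.1)).PosSemidef := hP.transpose.submatrix _
  have hQ' : (Q.submatrix (fun w : (Fin n → L) × ((Fin n → A) × (Fin n → B)) => w.2.2)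
      (fun w => w.2.2)).PosSemidef := hQ.submatrix _
  have hc : (vecMulVec (fun w : (Fin n → L) × ((Fin n → A) × (Fin n → B)) => (c w.1 : ℂ))
      (star fun w : (Fin n → L) × ((Fin n → A) × (Fin n → B)) => (c w.1 : ℂ))).PosSemidef :=
    posSemidef_vecMulVec_self_star _
  have hall := sum_entries_nonneg (((hN.hadamard hP').hadamard hQ').hadamard hc)
  have hentry : ∀ w w' : (Fin n → L) × ((Fin n → A) × (Fin n → B)),
      ((((piT (fun _ : Fin n => U + V) - piT (fun _ : Fin n => U - V)).submatrix e e) ⊙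
        (Pᵀ.submatrix (fun w : (Fin n → L) × ((Fin n → A) × (Fin n → B)) => w.2.1)
          (fun w => w.2.1)) ⊙
        (Q.submatrix (fun w : (Fin n → L) × ((Fin n → A) × (Fin n → B)) => w.2.2)
          (fun w => w.2.2))) ⊙
        (vecMulVec (fun w : (Fin n → L) × ((Fin n → A) × (Fin n → B)) => (c w.1 : ℂ))
          (star fun w : (Fin n → L) × ((Fin n → A) × (Fin n → B)) => (c w.1 : ℂ)))) w w' =
      (c w.1 * c w'.1 : ℝ) * (P w'.2.1 w.2.1 * Q w.2.2 w'.2.2 *
        ((if w.1 = w'.1 then tp (fun i => σ (w.1 i)) (w.2.1, w'.2.2) (w'.2.1, w.2.2) else 0) -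
          (tp (fun i => σ (w.1 i)) * tp (fun i => K (w'.1 i))) (w.2.1, w'.2.2) (w'.2.1, w.2.2))) := by
    rintro ⟨z, a, b⟩ ⟨z', a', b'⟩
    simp only [hadamard_apply, submatrix_apply, Matrix.sub_apply, transpose_apply,
      vecMulVec_apply, Pi.star_apply, e]
    have hst : star (c z' : ℂ) = (c z' : ℂ) := by simp
    rw [hst]
    by_cases h : ∃ i, la (a i) ≠ la (a' i) ∧ lb (b i) ≠ lb (b' i)
    · have h0 := hPQ a b a' b' h
      push_cast
      linear_combination ((piT (fun _ : Fin n => U + V) (fun i => (z i, (a i, b i)))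
        (fun i => (z' i, (a' i, b' i))) - piT (fun _ : Fin n => U - V)
        (fun i => (z i, (a i, b i))) (fun i => (z' i, (a' i, b' i)))) * c z * c z' -
        c z * c z' * ((if z = z' then tp (fun i => σ (z i)) (a, b') (a', b) else 0) -
          (tp (fun i => σ (z i)) * tp (fun i => K (z' i))) (a, b') (a', b))) * h0
    · push Not at h
      have h' : ∀ i, la (a i) = la (a' i) ∨ lb (b i) = lb (b' i) := by
        intro i
        by_cases h1 : la (a i) = la (a' i)
        · exact Or.inl h1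
        · exact Or.inr (h i h1)
      have h1 : piT (fun _ : Fin n => U + V) (fun i => (z i, (a i, b i)))
          (fun i => (z' i, (a' i, b' i))) =
          if z = z' then tp (fun i => σ (z i)) (a, b') (a', b) else 0 := by
        rw [piT_apply]
        by_cases hz : z = z'
        · subst hz
          rw [if_pos rfl]
          refine Finset.prod_congr rfl fun i _ => ?_
          rw [hD _ _ _ _ _ _ (h' i), if_pos rfl]
        · rw [if_neg hz]
          obtain ⟨i, hi⟩ := Function.ne_iff.mp hz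
          refine Finset.prod_eq_zero (Finset.mem_univ i) ?_
          rw [hD _ _ _ _ _ _ (h' i), if_neg hi]
      have h2 : piT (fun _ : Fin n => U - V) (fun i => (z i, (a i, b i)))
          (fun i => (z' i, (a' i, b' i))) =
          (tp (fun i => σ (z i)) * tp (fun i => K (z' i))) (a, b') (a', b) := by
        rw [piT_apply, ← tp_mul]
        refine Finset.prod_congr rfl fun i _ => ?_
        rw [hH _ _ _ _ _ _ (h' i)]
      rw [h1, h2]
      push_cast
      ring
  simp only [hentry] at hall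
  rw [sum_four] at hall
  have e1 : ∀ z z' : Fin n → L, ∑ p : (Fin n → A) × (Fin n → B), ∑ q : (Fin n → A) × (Fin n → B),
      ((c z * c z' : ℝ) : ℂ) * (P q.1 p.1 * Q p.2 q.2 *
        ((if z = z' then tp (fun i => σ (z i)) (p.1, q.2) (q.1, p.2) else 0) -
          (tp (fun i => σ (z i)) * tp (fun i => K (z' i))) (p.1, q.2) (q.1, p.2))) =
      ((c z * c z' : ℝ) : ℂ) * ((if z = z' then ((P ⊗ₖ Q) * tp (fun i => σ (z i))).trace else 0) -
        ((P ⊗ₖ Q) * (tp (fun i => σ (z i)) * tp (fun i => K (z' i)))).trace) := by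
    intro z z'
    have e2 : (if z = z' then ((P ⊗ₖ Q) * tp (fun i => σ (z i))).trace else 0) =
        ((P ⊗ₖ Q) * (if z = z' then tp (fun i => σ (z i)) else 0)).trace := by
      split_ifs
      · rfl
      · simp
    rw [e2, trace_kron_mul, trace_kron_mul]
    simp only [Fintype.sum_prod_type, ← Finset.sum_sub_distrib, Finset.mul_sum]
    refine Finset.sum_congr rfl fun a _ => Finset.sum_congr rfl fun b _ =>
      Finset.sum_congr rfl fun a' _ => Finset.sum_congr rfl fun b' _ => ?_
    split_ifs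
    · ring
    · simp
  simp only [e1] at hall
  simp only [mul_sub, Complex.re_sum, Complex.sub_re, Finset.sum_sub_distrib,
    Complex.re_ofReal_mul] at hall
  have e3 : ∀ z : Fin n → L, ∑ z' : Fin n → L, c z * c z' * (if z = z' then
      ((P ⊗ₖ Q) * tp (fun i => σ (z i))).trace else 0).re =
      c z ^ 2 * ((P ⊗ₖ Q) * tp (fun i => σ (z i))).trace.re := by
    intro z
    rw [Finset.sum_eq_single z]
    · rw [if_pos rfl]
      ring
    · intro z' _ hz
      rw [if_neg (Ne.symm hz)]
      simp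
    · simp
  simp only [e3] at hall
  linarith

end Vale.Agent.P372.LD
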