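import Vale.Agent.P372.Bdl.B1
import Vale.Agent.P372.H268.Tensor

open Matrix Kronecker
open scoped ComplexOrder MatrixOrder

set_option linter.unusedSectionVars false

namespace Vale.Agent.P372.LD

section hs

variable {E G : Type} [Fintype E] [DecidableEq E] [Fintype G] [DecidableEq G]

theorem tn_mul_le_hs (K L : Matrix G E ℂ) : traceNorm (Kᴴ * L) ≤ √(hs K) * √(hs L) := by
  refine traceNorm_le_of_forall fun W hW => ?_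
  rw [← Matrix.mul_assoc]
  refine (norm_trace_mul_le_hs _ _).trans ?_
  refine mul_le_mul_of_nonneg_right (Real.sqrt_le_sqrt ?_) (Real.sqrt_nonneg _)
  rw [← hs_conjTranspose K]
  exact hs_mul_le_left hW.2 _

theorem re_tr_nonneg {X : Matrix E E ℂ} (h : X.PosSemidef) : 0 ≤ X.trace.re :=
  (Complex.le_def.mp h.trace_nonneg).1

theorem re_tr_mul_nonneg {X Y : Matrix E E ℂ} (hX : X.PosSemidef) (hY : Y.PosSemidef) :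
    0 ≤ (X * Y).trace.re := by
  obtain ⟨C, rfl⟩ := exists_eq_conjTranspose_mul_self hX
  have : (Cᴴ * C * Y).trace = (C * Y * Cᴴ).trace := by
    rw [Matrix.mul_assoc, trace_mul_comm]
  rw [this]
  exact re_tr_nonneg (hY.mul_mul_conjTranspose_same C)

end hs

theorem cs_num {F a b p q : ℝ} (ha : 0 ≤ a) (hb : 0 ≤ b) (hp : 0 ≤ p) (hq : 0 ≤ q) (hF : 0 ≤ F)
    (h : 2 * F ≤ √a * √q + √p * √b) : 4 * F ^ 2 ≤ (a + b) * (p + q) := by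
  have h1 : (2 * F) ^ 2 ≤ (√a * √q + √p * √b) ^ 2 := pow_le_pow_left₀ (by positivity) h 2
  have e1 := Real.sq_sqrt ha
  have e2 := Real.sq_sqrt hb
  have e3 := Real.sq_sqrt hp
  have e4 := Real.sq_sqrt hq
  have h2 : (√a * √q + √p * √b) ^ 2 ≤ (√a ^ 2 + √b ^ 2) * (√p ^ 2 + √q ^ 2) := by
    nlinarith [sq_nonneg (√a * √p - √q * √b)]
  rw [e1, e2, e3, e4] at h2
  linarith

/-- The scalar inequality behind the choice of the coefficients. -/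
theorem label_num {a₀ a₁ b₀ b₁ : ℝ} (h0 : 0 ≤ a₀) (h1 : 0 ≤ a₁) (h2 : 0 ≤ b₀) (h3 : 0 ≤ b₁) :
    ∃ c : ℝ, a₀ * b₀ + a₁ * b₁ - 2 * (c * (a₀ * b₀ - a₁ * b₁)) + c ^ 2 * ((a₀ + a₁) * (b₀ + b₁)) ≤
      a₀ * b₁ + a₁ * b₀ := by
  by_cases hs : (a₀ + a₁) * (b₀ + b₁) = 0
  · refine ⟨0, ?_⟩
    have e1 : 0 ≤ a₀ * b₀ := mul_nonneg h0 h2
    have e2 : 0 ≤ a₀ * b₁ := mul_nonneg h0 h3
    have e3 : 0 ≤ a₁ * b₀ := mul_nonneg h1 h2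
    have e4 : 0 ≤ a₁ * b₁ := mul_nonneg h1 h3
    nlinarith
  · have hpos : 0 < (a₀ + a₁) * (b₀ + b₁) :=
      lt_of_le_of_ne (by positivity) (Ne.symm hs)
    refine ⟨(a₀ * b₀ - a₁ * b₁) / ((a₀ + a₁) * (b₀ + b₁)), ?_⟩
    set s := (a₀ + a₁) * (b₀ + b₁) with hsdef
    have e : a₀ * b₀ + a₁ * b₁ - 2 * ((a₀ * b₀ - a₁ * b₁) / s * (a₀ * b₀ - a₁ * b₁)) +
        ((a₀ * b₀ - a₁ * b₁) / s) ^ 2 * s =
        ((a₀ * b₀ + a₁ * b₁) * s - (a₀ * b₀ - a₁ * b₁) ^ 2) / s := by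
      field_simp
      ring
    rw [e, div_le_iff₀ hpos, hsdef]
    have e1 : 0 ≤ a₀ * b₀ := mul_nonneg h0 h2
    have e4 : 0 ≤ a₁ * b₁ := mul_nonneg h1 h3
    nlinarith [sq_nonneg (a₀ * b₁ - a₁ * b₀)]

variable {A B L : Type} [Fintype A] [DecidableEq A] [Fintype B] [DecidableEq B] [Fintype L]
  [DecidableEq L]

theorem weight_eq (ρ : Matrix (A × B) (A × B) ℂ) (X : Matrix A A ℂ) (Y : Matrix B B ℂ) :
    weight ρ X Y = (((Xᴴ * X) ⊗ₖ (Yᴴ * Y)) * ρ).trace.re := by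
  unfold weight
  rw [trace_mul_comm, ← Matrix.mul_assoc, mul_kronecker_mul, ← conjTranspose_kronecker]

theorem core (ρ : Matrix (A × B) (A × B) ℂ) (hρ : ρ.PosSemidef)
    (σ K : L → Matrix (A × B) (A × B) ℂ) (hK : ∀ l, ρ * K l = σ l)
    (hσ : ∀ l, (σ l)ᴴ = σ l) (hsum : ∑ l, σ l = ρ) (X₀ X₁ : Matrix A A ℂ) (Y₀ Y₁ : Matrix B B ℂ)
    (a₀ a₁ b₀ b₁ : L → ℝ) (ha₀ : ∀ l, 0 ≤ a₀ l) (ha₁ : ∀ l, 0 ≤ a₁ l) (hb₀ : ∀ l, 0 ≤ b₀ l)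
    (hb₁ : ∀ l, 0 ≤ b₁ l)
    (h00 : ∀ l, (((X₀ᴴ * X₀) ⊗ₖ (Y₀ᴴ * Y₀)) * σ l).trace.re = a₀ l * b₀ l)
    (h01 : ∀ l, (((X₀ᴴ * X₀) ⊗ₖ (Y₁ᴴ * Y₁)) * σ l).trace.re = a₀ l * b₁ l)
    (h10 : ∀ l, (((X₁ᴴ * X₁) ⊗ₖ (Y₀ᴴ * Y₀)) * σ l).trace.re = a₁ l * b₀ l)
    (h11 : ∀ l, (((X₁ᴴ * X₁) ⊗ₖ (Y₁ᴴ * Y₁)) * σ l).trace.re = a₁ l * b₁ l)
    (hc : ∀ c : L → ℝ, ∑ l, ∑ l', c l * c l' *
      (((X₀ᴴ * X₀ + X₁ᴴ * X₁) ⊗ₖ (Y₀ᴴ * Y₀ + Y₁ᴴ * Y₁)) * (σ l * K l')).trace.re ≤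
        ∑ l, c l ^ 2 * ((a₀ l + a₁ l) * (b₀ l + b₁ l))) :
    4 * traceNorm ((X₀ ⊗ₖ Y₀) * ρ * (X₁ ⊗ₖ Y₁)ᴴ) ^ 2 ≤
      (weight ρ X₀ Y₀ + weight ρ X₁ Y₁) * (weight ρ X₀ Y₁ + weight ρ X₁ Y₀) := by
  choose c hcl using fun l => label_num (ha₀ l) (ha₁ l) (hb₀ l) (hb₁ l)
  obtain ⟨C, hC⟩ := exists_eq_conjTranspose_mul_self hρ
  -- the sums of the weights
  have hw : ∀ (P : Matrix A A ℂ) (Q : Matrix B B ℂ),
      ((P ⊗ₖ Q) * ρ).trace.re = ∑ l, ((P ⊗ₖ Q) * σ l).trace.re := by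
    intro P Q
    rw [← hsum, Matrix.mul_sum, trace_sum, Complex.re_sum]
  set k : Matrix (A × B) (A × B) ℂ := ∑ l, (c l : ℂ) • K l with hk
  set R : Matrix (A × B) (A × B) ℂ := ∑ l, (c l : ℂ) • σ l with hR
  have hρk : ρ * k = R := by
    rw [hk, hR, Matrix.mul_sum]
    refine Finset.sum_congr rfl fun l _ => ?_
    rw [Matrix.mul_smul, hK]
  have hRH : Rᴴ = R := by
    rw [hR, conjTranspose_sum]
    refine Finset.sum_congr rfl fun l _ => ?_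
    rw [conjTranspose_smul, hσ]
    simp
  have hkρ : kᴴ * ρ = R := by
    rw [← hRH, ← hρk, conjTranspose_mul, hρ.isHermitian.eq]
  set T₀ := X₀ ⊗ₖ Y₀ with hT₀
  set T₁ := X₁ ⊗ₖ Y₁ with hT₁
  have hTT : ∀ (X : Matrix A A ℂ) (Y : Matrix B B ℂ), (X ⊗ₖ Y)ᴴ * (X ⊗ₖ Y) =
      (Xᴴ * X) ⊗ₖ (Yᴴ * Y) := by
    intro X Y
    rw [mul_kronecker_mul, ← conjTranspose_kronecker]
  have hG : ((2 : ℝ) : ℂ) • (T₀ * ρ * T₁ᴴ) = (C * (1 - k) * T₀ᴴ)ᴴ * (C * T₁ᴴ) +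
      (C * T₀ᴴ)ᴴ * (C * (1 + k) * T₁ᴴ) := by
    have e1 : (C * (1 - k) * T₀ᴴ)ᴴ * (C * T₁ᴴ) = T₀ * (ρ - R) * T₁ᴴ := by
      rw [conjTranspose_mul, conjTranspose_mul, conjTranspose_conjTranspose, conjTranspose_sub,
        conjTranspose_one]
      have : T₀ * ((1 - kᴴ) * Cᴴ) * (C * T₁ᴴ) = T₀ * ((1 - kᴴ) * (Cᴴ * C)) * T₁ᴴ := by
        simp only [Matrix.mul_assoc]
      rw [this, ← hC, Matrix.sub_mul, Matrix.one_mul, hkρ]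
    have e2 : (C * T₀ᴴ)ᴴ * (C * (1 + k) * T₁ᴴ) = T₀ * (ρ + R) * T₁ᴴ := by
      rw [conjTranspose_mul, conjTranspose_conjTranspose]
      have : T₀ * Cᴴ * (C * (1 + k) * T₁ᴴ) = T₀ * ((Cᴴ * C) * (1 + k)) * T₁ᴴ := by
        simp only [Matrix.mul_assoc]
      rw [this, ← hC, Matrix.mul_add, Matrix.mul_one, hρk]
    rw [e1, e2, ← Matrix.add_mul, ← Matrix.mul_add]
    have : ρ - R + (ρ + R) = ((2 : ℝ) : ℂ) • ρ := by
      push_cast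
      rw [two_smul]
      abel
    rw [this, Matrix.mul_smul, Matrix.smul_mul]
  have hF : 2 * traceNorm (T₀ * ρ * T₁ᴴ) ≤
      √(hs (C * (1 - k) * T₀ᴴ)) * √(hs (C * T₁ᴴ)) +
      √(hs (C * T₀ᴴ)) * √(hs (C * (1 + k) * T₁ᴴ)) := by
    have h1 : traceNorm (((2 : ℝ) : ℂ) • (T₀ * ρ * T₁ᴴ)) = 2 * traceNorm (T₀ * ρ * T₁ᴴ) := by
      rw [traceNorm_smul, Complex.norm_real]
      norm_num
    rw [← h1, hG]
    exact (traceNorm_add_le _ _).trans (add_le_add (tn_mul_le_hs _ _) (tn_mul_le_hs _ _))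
  -- the four norms
  have hs0 : ∀ (X : Matrix A A ℂ) (Y : Matrix B B ℂ), hs (C * (X ⊗ₖ Y)ᴴ) = weight ρ X Y := by
    intro X Y
    rw [hs_eq_re, weight, hC, conjTranspose_mul, conjTranspose_conjTranspose]
    simp only [Matrix.mul_assoc]
  have hs1 : ∀ (X : Matrix A A ℂ) (Y : Matrix B B ℂ) (e : ℝ),
      hs (C * (1 + (e : ℂ) • k) * (X ⊗ₖ Y)ᴴ) = weight ρ X Y +
        2 * e * (((Xᴴ * X) ⊗ₖ (Yᴴ * Y)) * R).trace.re +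
        e ^ 2 * (((Xᴴ * X) ⊗ₖ (Yᴴ * Y)) * (R * k)).trace.re := by
    intro X Y e
    have e1 : (C * (1 + (e : ℂ) • k) * (X ⊗ₖ Y)ᴴ)ᴴ * (C * (1 + (e : ℂ) • k) * (X ⊗ₖ Y)ᴴ) =
        (X ⊗ₖ Y) * (ρ + ((2 * e : ℝ) : ℂ) • R + ((e ^ 2 : ℝ) : ℂ) • (R * k)) * (X ⊗ₖ Y)ᴴ := by
      rw [conjTranspose_mul, conjTranspose_mul, conjTranspose_conjTranspose, conjTranspose_add,
        conjTranspose_one, conjTranspose_smul]
      have h1 : (X ⊗ₖ Y) * ((1 + star (e : ℂ) • kᴴ) * Cᴴ) * (C * (1 + (e : ℂ) • k) * (X ⊗ₖ Y)ᴴ) =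
          (X ⊗ₖ Y) * ((1 + star (e : ℂ) • kᴴ) * (Cᴴ * C) * (1 + (e : ℂ) • k)) * (X ⊗ₖ Y)ᴴ := by
        simp only [Matrix.mul_assoc]
      rw [h1, ← hC]
      congr 2
      have h2 : star (e : ℂ) = (e : ℂ) := by simp
      rw [h2, Matrix.add_mul, Matrix.one_mul, Matrix.smul_mul, hkρ, Matrix.mul_add,
        Matrix.mul_one, Matrix.mul_smul, Matrix.add_mul, hρk, Matrix.smul_mul, smul_add,
        smul_smul]
      push_cast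
      rw [two_mul, add_smul, sq]
      abel
    rw [hs_eq_re, e1, trace_mul_comm, ← Matrix.mul_assoc, hTT, Matrix.mul_add, Matrix.mul_add,
      trace_add, trace_add, Matrix.mul_smul, Matrix.mul_smul, trace_smul, trace_smul,
      Complex.add_re, Complex.add_re, smul_eq_mul, smul_eq_mul, Complex.re_ofReal_mul,
      Complex.re_ofReal_mul, weight_eq]
  have hR' : ∀ (P : Matrix A A ℂ) (Q : Matrix B B ℂ),
      ((P ⊗ₖ Q) * R).trace.re = ∑ l, c l * ((P ⊗ₖ Q) * σ l).trace.re := by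
    intro P Q
    rw [hR, Matrix.mul_sum, trace_sum, Complex.re_sum]
    refine Finset.sum_congr rfl fun l _ => ?_
    rw [Matrix.mul_smul, trace_smul, smul_eq_mul, Complex.re_ofReal_mul]
  have hRk : ∀ (P : Matrix A A ℂ) (Q : Matrix B B ℂ),
      ((P ⊗ₖ Q) * (R * k)).trace.re =
        ∑ l, ∑ l', c l * c l' * ((P ⊗ₖ Q) * (σ l * K l')).trace.re := by
    intro P Q
    rw [hR, hk, Matrix.sum_mul, Matrix.mul_sum, trace_sum, Complex.re_sum]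
    refine Finset.sum_congr rfl fun l _ => ?_
    rw [Matrix.mul_sum, Matrix.mul_sum, trace_sum, Complex.re_sum]
    refine Finset.sum_congr rfl fun l' _ => ?_
    have e : (P ⊗ₖ Q) * (((c l : ℂ) • σ l) * ((c l' : ℂ) • K l')) =
        ((c l * c l' : ℝ) : ℂ) • ((P ⊗ₖ Q) * (σ l * K l')) := by
      simp only [Matrix.smul_mul, Matrix.mul_smul, smul_smul]
      push_cast
      rw [mul_comm (c l' : ℂ)]
    rw [e, trace_smul, smul_eq_mul, Complex.re_ofReal_mul]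
  -- positivity of the cross terms
  have hRkpsd : (R * k).PosSemidef := by
    rw [← hkρ]
    exact hρ.conjTranspose_mul_mul_same k
  have hpos : ∀ (X : Matrix A A ℂ) (Y : Matrix B B ℂ),
      0 ≤ (((Xᴴ * X) ⊗ₖ (Yᴴ * Y)) * (R * k)).trace.re := fun X Y =>
    re_tr_mul_nonneg ((posSemidef_conjTranspose_mul_self X).kronecker
      (posSemidef_conjTranspose_mul_self Y)) hRkpsd
  have hcross : (((X₀ᴴ * X₀) ⊗ₖ (Y₀ᴴ * Y₀)) * (R * k)).trace.re +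
      (((X₁ᴴ * X₁) ⊗ₖ (Y₁ᴴ * Y₁)) * (R * k)).trace.re ≤
      (((X₀ᴴ * X₀ + X₁ᴴ * X₁) ⊗ₖ (Y₀ᴴ * Y₀ + Y₁ᴴ * Y₁)) * (R * k)).trace.re := by
    rw [add_kronecker, kronecker_add, kronecker_add, Matrix.add_mul, Matrix.add_mul,
      Matrix.add_mul, trace_add, trace_add, trace_add, Complex.add_re, Complex.add_re,
      Complex.add_re]
    have h1 := hpos X₀ Y₁
    have h2 := hpos X₁ Y₀
    linarith
  have e0 : hs (C * (1 - k) * T₀ᴴ) = weight ρ X₀ Y₀ -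
      2 * (((X₀ᴴ * X₀) ⊗ₖ (Y₀ᴴ * Y₀)) * R).trace.re +
      (((X₀ᴴ * X₀) ⊗ₖ (Y₀ᴴ * Y₀)) * (R * k)).trace.re := by
    have := hs1 X₀ Y₀ (-1)
    have h1 : (1 : Matrix (A × B) (A × B) ℂ) + ((-1 : ℝ) : ℂ) • k = 1 - k := by
      push_cast
      rw [neg_smul, one_smul, sub_eq_add_neg]
    rw [h1] at this
    rw [hT₀, this]
    ring
  have e1 : hs (C * (1 + k) * T₁ᴴ) = weight ρ X₁ Y₁ +
      2 * (((X₁ᴴ * X₁) ⊗ₖ (Y₁ᴴ * Y₁)) * R).trace.re +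
      (((X₁ᴴ * X₁) ⊗ₖ (Y₁ᴴ * Y₁)) * (R * k)).trace.re := by
    have := hs1 X₁ Y₁ 1
    have h1 : (1 : Matrix (A × B) (A × B) ℂ) + ((1 : ℝ) : ℂ) • k = 1 + k := by
      push_cast
      rw [one_smul]
    rw [h1] at this
    rw [hT₁, this]
    ring
  have n0 : 0 ≤ hs (C * (1 - k) * T₀ᴴ) := hs_nonneg _
  have n1 : 0 ≤ hs (C * (1 + k) * T₁ᴴ) := hs_nonneg _
  have n2 : 0 ≤ hs (C * T₀ᴴ) := hs_nonneg _
  have n3 : 0 ≤ hs (C * T₁ᴴ) := hs_nonneg _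
  have hmain := cs_num n0 n1 n2 n3 (traceNorm_nonneg _) hF
  rw [hs0 X₀ Y₀, hs0 X₁ Y₁, e0, e1] at hmain
  refine hmain.trans ?_
  rw [mul_comm]
  have w0 : 0 ≤ weight ρ X₀ Y₀ + weight ρ X₁ Y₁ := by
    rw [← hs0, ← hs0]
    exact add_nonneg (hs_nonneg _) (hs_nonneg _)
  refine mul_le_mul_of_nonneg_left ?_ w0
  have f00 : weight ρ X₀ Y₀ = ∑ l, a₀ l * b₀ l := by
    rw [weight_eq, hw]
    exact Finset.sum_congr rfl fun l _ => h00 l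
  have f01 : weight ρ X₀ Y₁ = ∑ l, a₀ l * b₁ l := by
    rw [weight_eq, hw]
    exact Finset.sum_congr rfl fun l _ => h01 l
  have f10 : weight ρ X₁ Y₀ = ∑ l, a₁ l * b₀ l := by
    rw [weight_eq, hw]
    exact Finset.sum_congr rfl fun l _ => h10 l
  have f11 : weight ρ X₁ Y₁ = ∑ l, a₁ l * b₁ l := by
    rw [weight_eq, hw]
    exact Finset.sum_congr rfl fun l _ => h11 l
  have g00 : (((X₀ᴴ * X₀) ⊗ₖ (Y₀ᴴ * Y₀)) * R).trace.re = ∑ l, c l * (a₀ l * b₀ l) := by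
    rw [hR']
    exact Finset.sum_congr rfl fun l _ => by rw [h00]
  have g11 : (((X₁ᴴ * X₁) ⊗ₖ (Y₁ᴴ * Y₁)) * R).trace.re = ∑ l, c l * (a₁ l * b₁ l) := by
    rw [hR']
    exact Finset.sum_congr rfl fun l _ => by rw [h11]
  have g := hcross.trans ((hRk _ _).le.trans (hc c))
  have hfin : ∑ l, (a₀ l * b₀ l + a₁ l * b₁ l - 2 * (c l * (a₀ l * b₀ l - a₁ l * b₁ l)) +
      c l ^ 2 * ((a₀ l + a₁ l) * (b₀ l + b₁ l))) ≤ ∑ l, (a₀ l * b₁ l + a₁ l * b₀ l) :=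
    Finset.sum_le_sum fun l _ => hcl l
  have hexp : ∑ l, (a₀ l * b₀ l + a₁ l * b₁ l - 2 * (c l * (a₀ l * b₀ l - a₁ l * b₁ l)) +
      c l ^ 2 * ((a₀ l + a₁ l) * (b₀ l + b₁ l))) = ∑ l, a₀ l * b₀ l + ∑ l, a₁ l * b₁ l -
      2 * ∑ l, c l * (a₀ l * b₀ l) + 2 * ∑ l, c l * (a₁ l * b₁ l) +
      ∑ l, c l ^ 2 * ((a₀ l + a₁ l) * (b₀ l + b₁ l)) := by
    simp only [Finset.mul_sum, ← Finset.sum_add_distrib, ← Finset.sum_sub_distrib]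
    refine Finset.sum_congr rfl fun l _ => ?_
    ring
  rw [hexp, Finset.sum_add_distrib] at hfin
  rw [f00, f01, f10, f11, g00, g11]
  linarith

end Vale.Agent.P372.LD
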