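import Vale.Agent.P372.H268.Contr

open Matrix Kronecker
open scoped ComplexOrder MatrixOrder

set_option linter.unusedSectionVars false

namespace Vale.Agent.P372.LD

theorem exists_scale {a b ε : ℝ} (ha : 0 ≤ a) (hb : 0 ≤ b) (hε : 0 < ε) :
    ∃ s : ℝ, 0 < s ∧ s * a + b / s ≤ 2 * √(a * b) + ε := by
  rcases ha.eq_or_lt with h | h
  · refine ⟨b / ε + 1, by positivity, ?_⟩
    rw [← h, zero_mul, Real.sqrt_zero, mul_zero, mul_zero, zero_add, zero_add,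
      div_le_iff₀ (by positivity)]
    have : ε * (b / ε + 1) = b + ε := by field_simp
    rw [this]
    linarith
  · rcases hb.eq_or_lt with h' | h'
    · refine ⟨ε / a, by positivity, ?_⟩
      rw [← h', mul_zero, Real.sqrt_zero, mul_zero, zero_div, add_zero, zero_add,
        div_mul_cancel₀ _ h.ne']
    · refine ⟨√(b / a), Real.sqrt_pos.mpr (by positivity), ?_⟩
      have e1 : √(b / a) * a = √(a * b) := by
        have : a * b = (b / a) * a ^ 2 := by field_simp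
        rw [this, Real.sqrt_mul (by positivity), Real.sqrt_sq ha]
      have e2 : b / √(b / a) = √(a * b) := by
        rw [div_eq_iff (Real.sqrt_pos.mpr (by positivity)).ne', ← Real.sqrt_mul (by positivity)]
        have : a * b * (b / a) = b ^ 2 := by field_simp
        rw [this, Real.sqrt_sq hb]
      rw [e1, e2]
      linarith

theorem scale_inf {F p00 p01 p10 p11 : ℝ} (h00 : 0 ≤ p00) (h01 : 0 ≤ p01)
    (h10 : 0 ≤ p10) (h11 : 0 ≤ p11)
    (h : ∀ s r : ℝ, 0 < s → 0 < r → 4 * F ^ 2 ≤ (s * p00 + p11 / s) * (r * p01 + p10 / r)) :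
    F ^ 4 ≤ p00 * p01 * p10 * p11 := by
  set x := √(p00 * p11) with hx
  set y := √(p01 * p10) with hy
  have hx0 : 0 ≤ x := Real.sqrt_nonneg _
  have hy0 : 0 ≤ y := Real.sqrt_nonneg _
  have hx2 : x ^ 2 = p00 * p11 := Real.sq_sqrt (mul_nonneg h00 h11)
  have hy2 : y ^ 2 = p01 * p10 := Real.sq_sqrt (mul_nonneg h01 h10)
  have key : F ^ 2 ≤ x * y := by
    by_contra hcon
    push Not at hcon
    set g := F ^ 2 - x * y with hg
    have hg0 : 0 < g := by linarith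
    have hc : 0 < 2 * (x + y) + 1 := by positivity
    set ε := min 1 (g / (2 * (x + y) + 1)) with hε
    have hε0 : 0 < ε := lt_min one_pos (div_pos hg0 hc)
    have hε1 : ε ≤ 1 := min_le_left _ _
    have hε2 : ε * (2 * (x + y) + 1) ≤ g := by
      rw [← le_div_iff₀ hc]
      exact min_le_right _ _
    obtain ⟨s, hs, hs'⟩ := exists_scale h00 h11 hε0
    obtain ⟨r, hr, hr'⟩ := exists_scale h01 h10 hε0
    have h1 := h s r hs hr
    have h2 : (s * p00 + p11 / s) * (r * p01 + p10 / r) ≤ (2 * x + ε) * (2 * y + ε) :=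
      mul_le_mul hs' hr' (by positivity) (by positivity)
    nlinarith
  have h1 : (F ^ 2) ^ 2 ≤ (x * y) ^ 2 := pow_le_pow_left₀ (by positivity) key 2
  calc F ^ 4 = (F ^ 2) ^ 2 := by ring
    _ ≤ (x * y) ^ 2 := h1
    _ = p00 * p01 * p10 * p11 := by rw [mul_pow, hx2, hy2]; ring

variable {A B : Type} [Fintype A] [DecidableEq A] [Fintype B] [DecidableEq B]

theorem conj_smul' (ρ : Matrix (A × B) (A × B) ℂ) (α β γ δ : ℝ) (X X' : Matrix A A ℂ)
    (Y Y' : Matrix B B ℂ) :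
    (((α : ℂ) • X) ⊗ₖ ((β : ℂ) • Y)) * ρ * (((γ : ℂ) • X') ⊗ₖ ((δ : ℂ) • Y'))ᴴ =
      ((α * β * γ * δ : ℝ) : ℂ) • ((X ⊗ₖ Y) * ρ * (X' ⊗ₖ Y')ᴴ) := by
  simp only [smul_kronecker, kronecker_smul, conjTranspose_smul, Matrix.smul_mul,
      Matrix.mul_smul, smul_smul, RCLike.star_def, map_mul, Complex.conj_ofReal]
  congr 1
  push_cast
  ring

theorem weight_smul (ρ : Matrix (A × B) (A × B) ℂ) (α β : ℝ) (X : Matrix A A ℂ)
    (Y : Matrix B B ℂ) : weight ρ ((α : ℂ) • X) ((β : ℂ) • Y) = α ^ 2 * β ^ 2 * weight ρ X Y := by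
  rw [weight, conj_smul', trace_smul, smul_eq_mul, Complex.re_ofReal_mul, weight]
  ring

theorem weight_nonneg {ρ : Matrix (A × B) (A × B) ℂ} (hρ : ρ.PosSemidef) (X : Matrix A A ℂ)
    (Y : Matrix B B ℂ) : 0 ≤ weight ρ X Y :=
  re_tr_nonneg (hρ.mul_mul_conjTranspose_same _)

/-- Passing from the balanced inequality to the test. -/
theorem test_of_balanced {ρ : Matrix (A × B) (A × B) ℂ} (hρ : ρ.PosSemidef)
    (X₀ X₁ : Matrix A A ℂ) (Y₀ Y₁ : Matrix B B ℂ)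
    (h : ∀ α β : ℝ, 0 < α → 0 < β →
      4 * traceNorm ((((α : ℂ) • X₀) ⊗ₖ ((β : ℂ) • Y₀)) * ρ *
        ((((α⁻¹ : ℝ) : ℂ) • X₁) ⊗ₖ (((β⁻¹ : ℝ) : ℂ) • Y₁))ᴴ) ^ 2 ≤
      (weight ρ ((α : ℂ) • X₀) ((β : ℂ) • Y₀) +
        weight ρ (((α⁻¹ : ℝ) : ℂ) • X₁) (((β⁻¹ : ℝ) : ℂ) • Y₁)) *
      (weight ρ ((α : ℂ) • X₀) (((β⁻¹ : ℝ) : ℂ) • Y₁) +
        weight ρ (((α⁻¹ : ℝ) : ℂ) • X₁) ((β : ℂ) • Y₀))) :
    traceNorm ((X₀ ⊗ₖ Y₀) * ρ * (X₁ ⊗ₖ Y₁)ᴴ) ^ 4 ≤
      weight ρ X₀ Y₀ * weight ρ X₀ Y₁ * weight ρ X₁ Y₀ * weight ρ X₁ Y₁ := by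
  refine scale_inf (weight_nonneg hρ _ _) (weight_nonneg hρ _ _)
    (weight_nonneg hρ _ _) (weight_nonneg hρ _ _) fun s r hs hr => ?_
  have hα2 : √√(s * r) ^ 2 = √(s * r) := Real.sq_sqrt (Real.sqrt_nonneg _)
  have hβ2 : √√(s / r) ^ 2 = √(s / r) := Real.sq_sqrt (Real.sqrt_nonneg _)
  have hα : 0 < √√(s * r) := Real.sqrt_pos.mpr (Real.sqrt_pos.mpr (by positivity))
  have hβ : 0 < √√(s / r) := Real.sqrt_pos.mpr (Real.sqrt_pos.mpr (by positivity))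
  have h1 := h _ _ hα hβ
  set α := √√(s * r)
  set β := √√(s / r)
  rw [conj_smul', traceNorm_smul, weight_smul, weight_smul, weight_smul, weight_smul] at h1
  have e1 : α * β * α⁻¹ * β⁻¹ = 1 := by field_simp
  rw [e1] at h1
  have e2 : α ^ 2 * β ^ 2 = s := by
    rw [hα2, hβ2, ← Real.sqrt_mul (by positivity)]
    have : s * r * (s / r) = s ^ 2 := by field_simp
    rw [this, Real.sqrt_sq hs.le]
  have e3 : α ^ 2 * β⁻¹ ^ 2 = r := by
    rw [inv_pow, hα2, hβ2, ← div_eq_mul_inv, ← Real.sqrt_div (by positivity)]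
    have : s * r / (s / r) = r ^ 2 := by field_simp
    rw [this, Real.sqrt_sq hr.le]
  have e4 : α⁻¹ ^ 2 * β⁻¹ ^ 2 = s⁻¹ := by
    rw [← e2]
    field_simp
  have e5 : α⁻¹ ^ 2 * β ^ 2 = r⁻¹ := by
    rw [← e3]
    field_simp
  rw [e2, e3, e4, e5] at h1
  simp only [Complex.ofReal_one, norm_one, one_mul] at h1
  rw [div_eq_inv_mul, div_eq_inv_mul]
  exact h1

variable {L κ κ' : Type} [Fintype L] [DecidableEq L] {n : ℕ}

theorem diag_eq_re {E : Type} [Fintype E] [DecidableEq E] {P : Matrix E E ℂ} (hP : P.PosSemidef)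
    (a : E) : P a a = ((P a a).re : ℂ) := by
  have h := congrFun (congrFun hP.isHermitian.eq a) a
  rw [conjTranspose_apply] at h
  exact (Complex.conj_eq_iff_re.mp h).symm

theorem prod_form (σ : L → Matrix (A × B) (A × B) ℂ) (la : A → κ) (lb : B → κ')
    (α : L → A → ℝ) (β : L → B → ℝ)
    (hσ : ∀ z a b a' b', (la a = la a' ∨ lb b = lb b') →
      σ z (a, b') (a', b) = if a = a' ∧ b = b' then ((α z a * β z b : ℝ) : ℂ) else 0)
    {P : Matrix (Fin n → A) (Fin n → A) ℂ} {Q : Matrix (Fin n → B) (Fin n → B) ℂ}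
    (hP : P.PosSemidef) (hQ : Q.PosSemidef)
    (hPQ : ∀ a b a' b', (∃ i, la (a i) ≠ la (a' i) ∧ lb (b i) ≠ lb (b' i)) →
      P a' a * Q b b' = 0) (z : Fin n → L) :
    ((P ⊗ₖ Q) * tp (fun i => σ (z i))).trace.re =
      (∑ a, (P a a).re * ∏ i, α (z i) (a i)) * ∑ b, (Q b b).re * ∏ i, β (z i) (b i) := by
  classical
  rw [trace_kron_mul]
  have h1 : ∀ a b a' b', P a' a * Q b b' * tp (fun i => σ (z i)) (a, b') (a', b) =
      if a' = a then (if b' = b then (((P a a).re * (∏ i, α (z i) (a i)) *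
        ((Q b b).re * ∏ i, β (z i) (b i)) : ℝ) : ℂ) else 0) else 0 := by
    intro a b a' b'
    by_cases h : ∃ i, la (a i) ≠ la (a' i) ∧ lb (b i) ≠ lb (b' i)
    · rw [hPQ a b a' b' h, zero_mul]
      obtain ⟨i, hi, _⟩ := h
      have : a' ≠ a := fun h' => hi (by rw [h'])
      rw [if_neg this]
    · push Not at h
      have h' : ∀ i, la (a i) = la (a' i) ∨ lb (b i) = lb (b' i) := by
        intro i
        by_cases h1 : la (a i) = la (a' i)
        · exact Or.inl h1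
        · exact Or.inr (h i h1)
      have h2 : tp (fun i => σ (z i)) (a, b') (a', b) =
          ∏ i, (if a i = a' i ∧ b i = b' i then ((α (z i) (a i) * β (z i) (b i) : ℝ) : ℂ)
            else 0) := Finset.prod_congr rfl fun i _ => hσ _ _ _ _ _ (h' i)
      rw [h2]
      by_cases ha : a' = a
      · by_cases hb : b' = b
        · subst ha
          subst hb
          simp only [and_self, if_true]
          rw [diag_eq_re hP a', diag_eq_re hQ b']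
          push_cast
          rw [Finset.prod_mul_distrib]
          simp only [Complex.ofReal_re]
          ring
        · rw [if_pos ha, if_neg hb]
          obtain ⟨i, hi⟩ := Function.ne_iff.mp hb
          rw [Finset.prod_eq_zero (Finset.mem_univ i), mul_zero]
          rw [if_neg]
          exact fun h => hi h.2.symm
      · rw [if_neg ha]
        obtain ⟨i, hi⟩ := Function.ne_iff.mp ha
        rw [Finset.prod_eq_zero (Finset.mem_univ i), mul_zero]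
        rw [if_neg]
        exact fun h => hi h.1.symm
  simp only [h1]
  rw [Finset.sum_mul_sum, Complex.re_sum]
  refine Finset.sum_congr rfl fun a _ => ?_
  rw [Complex.re_sum]
  refine Finset.sum_congr rfl fun b _ => ?_
  have h2 : ∀ a' : Fin n → A, (∑ b' : Fin n → B, if a' = a then (if b' = b then
      (((P a a).re * (∏ i, α (z i) (a i)) * ((Q b b).re * ∏ i, β (z i) (b i)) : ℝ) : ℂ)
        else 0) else 0) = if a' = a then (((P a a).re * (∏ i, α (z i) (a i)) *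
        ((Q b b).re * ∏ i, β (z i) (b i)) : ℝ) : ℂ) else 0 := by
    intro a'
    split_ifs
    · simp
    · simp
  simp only [h2, Finset.sum_ite_eq', Finset.mem_univ, if_true, Complex.ofReal_re]

theorem Blk.smul {E κ : Type} {n : ℕ} {la : E → κ} {S : Set (Fin n)}
    [Fintype E] [DecidableEq E] {X : Matrix (Fin n → E) (Fin n → E) ℂ} (h : Blk la S (Xᴴ * X))
    (c : ℝ) : Blk la S (((c : ℂ) • X)ᴴ * ((c : ℂ) • X)) := fun p q hpq => by
  rw [conjTranspose_smul, Matrix.smul_mul, Matrix.mul_smul, smul_smul, Matrix.smul_apply,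
    h p q hpq, smul_zero]

theorem blk_mul {S : Set (Fin n)} {la : A → κ} {lb : B → κ'}
    {P : Matrix (Fin n → A) (Fin n → A) ℂ} {Q : Matrix (Fin n → B) (Fin n → B) ℂ}
    (hP : Blk la S P) (hQ : Blk lb Sᶜ Q) (a : Fin n → A) (b : Fin n → B) (a' : Fin n → A)
    (b' : Fin n → B) (h : ∃ i, la (a i) ≠ la (a' i) ∧ lb (b i) ≠ lb (b' i)) :
    P a' a * Q b b' = 0 := by
  obtain ⟨i, h1, h2⟩ := h
  by_cases hi : i ∈ S
  · rw [hP a' a ⟨i, hi, Ne.symm h1⟩, zero_mul]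
  · rw [hQ b b' ⟨i, hi, h2⟩, mul_zero]

/-- The balanced inequality. -/
theorem balanced (ρ : Matrix (A × B) (A × B) ℂ) (hρ : ρ.PosSemidef)
    (σ K : L → Matrix (A × B) (A × B) ℂ) (hK : ∀ l, ρ * K l = σ l) (hσH : ∀ l, (σ l)ᴴ = σ l)
    (hsum : ∑ l, σ l = ρ) {U V : Matrix (L × (A × B)) (L × (A × B)) ℂ}
    (hU : U.PosSemidef) (hV : V.PosSemidef) (la : A → κ) (lb : B → κ')
    (hD : ∀ z z' a b a' b', (la a = la a' ∨ lb b = lb b') →
      (U + V) (z, (a, b)) (z', (a', b')) = if z = z' then σ z (a, b') (a', b) else 0)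
    (hH : ∀ z z' a b a' b', (la a = la a' ∨ lb b = lb b') →
      (U - V) (z, (a, b)) (z', (a', b')) = (σ z * K z') (a, b') (a', b))
    (α : L → A → ℝ) (β : L → B → ℝ) (hα : ∀ z a, 0 ≤ α z a) (hβ : ∀ z b, 0 ≤ β z b)
    (hσ : ∀ z a b a' b', (la a = la a' ∨ lb b = lb b') →
      σ z (a, b') (a', b) = if a = a' ∧ b = b' then ((α z a * β z b : ℝ) : ℂ) else 0)
    (n : ℕ) (S : Set (Fin n)) (X₀ X₁ : Matrix (Fin n → A) (Fin n → A) ℂ)
    (Y₀ Y₁ : Matrix (Fin n → B) (Fin n → B) ℂ) (hX₀ : Blk la S (X₀ᴴ * X₀))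
    (hX₁ : Blk la S (X₁ᴴ * X₁)) (hY₀ : Blk lb Sᶜ (Y₀ᴴ * Y₀)) (hY₁ : Blk lb Sᶜ (Y₁ᴴ * Y₁)) :
    4 * traceNorm ((X₀ ⊗ₖ Y₀) * tpow n ρ * (X₁ ⊗ₖ Y₁)ᴴ) ^ 2 ≤
      (weight (tpow n ρ) X₀ Y₀ + weight (tpow n ρ) X₁ Y₁) *
        (weight (tpow n ρ) X₀ Y₁ + weight (tpow n ρ) X₁ Y₀) := by
  classical
  have hρn : (tpow n ρ).PosSemidef := by
    rw [tpow_eq]
    exact tp_posSemidef fun _ => hρ
  have pP : ∀ (X : Matrix (Fin n → A) (Fin n → A) ℂ), (Xᴴ * X).PosSemidef :=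
    posSemidef_conjTranspose_mul_self
  have pQ : ∀ (Y : Matrix (Fin n → B) (Fin n → B) ℂ), (Yᴴ * Y).PosSemidef :=
    posSemidef_conjTranspose_mul_self
  have hαn : ∀ (X : Matrix (Fin n → A) (Fin n → A) ℂ) (z : Fin n → L),
      0 ≤ ∑ a, ((Xᴴ * X) a a).re * ∏ i, α (z i) (a i) := fun X z =>
    Finset.sum_nonneg fun a _ => mul_nonneg (Complex.le_def.mp (pP X).diag_nonneg).1
      (Finset.prod_nonneg fun i _ => hα _ _)
  have hβn : ∀ (Y : Matrix (Fin n → B) (Fin n → B) ℂ) (z : Fin n → L),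
      0 ≤ ∑ b, ((Yᴴ * Y) b b).re * ∏ i, β (z i) (b i) := fun Y z =>
    Finset.sum_nonneg fun a _ => mul_nonneg (Complex.le_def.mp (pQ Y).diag_nonneg).1
      (Finset.prod_nonneg fun i _ => hβ _ _)
  refine core (tpow n ρ) hρn (fun z : Fin n → L => tp (fun i => σ (z i)))
    (fun z : Fin n → L => tp (fun i => K (z i))) (fun z => ?_) (fun z => ?_) ?_ X₀ X₁ Y₀ Y₁
    (fun z => ∑ a, ((X₀ᴴ * X₀) a a).re * ∏ i, α (z i) (a i))
    (fun z => ∑ a, ((X₁ᴴ * X₁) a a).re * ∏ i, α (z i) (a i))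
    (fun z => ∑ b, ((Y₀ᴴ * Y₀) b b).re * ∏ i, β (z i) (b i))
    (fun z => ∑ b, ((Y₁ᴴ * Y₁) b b).re * ∏ i, β (z i) (b i))
    (hαn X₀) (hαn X₁) (hβn Y₀) (hβn Y₁)
    (prod_form σ la lb α β hσ (pP _) (pQ _) (blk_mul hX₀ hY₀))
    (prod_form σ la lb α β hσ (pP _) (pQ _) (blk_mul hX₀ hY₁))
    (prod_form σ la lb α β hσ (pP _) (pQ _) (blk_mul hX₁ hY₀))
    (prod_form σ la lb α β hσ (pP _) (pQ _) (blk_mul hX₁ hY₁)) fun c => ?_
  · rw [tpow_eq, ← tp_mul]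
    simp only [hK]
  · rw [tp_conjTranspose]
    simp only [hσH]
  · rw [tpow_eq, ← hsum, tp_sum]
  · have h1 := contr σ K hU hV la lb hD hH ((pP X₀).add (pP X₁)) ((pQ Y₀).add (pQ Y₁))
      (blk_mul (hX₀.add hX₁) (hY₀.add hY₁)) c
    refine h1.trans (le_of_eq (Finset.sum_congr rfl fun z _ => ?_))
    rw [prod_form σ la lb α β hσ ((pP X₀).add (pP X₁)) ((pQ Y₀).add (pQ Y₁))
      (blk_mul (hX₀.add hX₁) (hY₀.add hY₁))]
    simp only [Matrix.add_apply, Complex.add_re, add_mul, Finset.sum_add_distrib]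

/-- One-copy data that exclude key for all numbers of copies when, in every copy, the operators of
one of the parties are block diagonal with respect to the labels. -/
theorem main_abs (ρ : Matrix (A × B) (A × B) ℂ) (hρ : ρ.PosSemidef)
    (σ K : L → Matrix (A × B) (A × B) ℂ) (hK : ∀ l, ρ * K l = σ l) (hσH : ∀ l, (σ l)ᴴ = σ l)
    (hsum : ∑ l, σ l = ρ) {U V : Matrix (L × (A × B)) (L × (A × B)) ℂ}
    (hU : U.PosSemidef) (hV : V.PosSemidef) (la : A → κ) (lb : B → κ')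
    (hD : ∀ z z' a b a' b', (la a = la a' ∨ lb b = lb b') →
      (U + V) (z, (a, b)) (z', (a', b')) = if z = z' then σ z (a, b') (a', b) else 0)
    (hH : ∀ z z' a b a' b', (la a = la a' ∨ lb b = lb b') →
      (U - V) (z, (a, b)) (z', (a', b')) = (σ z * K z') (a, b') (a', b))
    (α : L → A → ℝ) (β : L → B → ℝ) (hα : ∀ z a, 0 ≤ α z a) (hβ : ∀ z b, 0 ≤ β z b)
    (hσ : ∀ z a b a' b', (la a = la a' ∨ lb b = lb b') →
      σ z (a, b') (a', b) = if a = a' ∧ b = b' then ((α z a * β z b : ℝ) : ℂ) else 0)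
    (n : ℕ) (S : Set (Fin n)) (X₀ X₁ : Matrix (Fin n → A) (Fin n → A) ℂ)
    (Y₀ Y₁ : Matrix (Fin n → B) (Fin n → B) ℂ) (hX₀ : Blk la S (X₀ᴴ * X₀))
    (hX₁ : Blk la S (X₁ᴴ * X₁)) (hY₀ : Blk lb Sᶜ (Y₀ᴴ * Y₀)) (hY₁ : Blk lb Sᶜ (Y₁ᴴ * Y₁)) :
    traceNorm ((X₀ ⊗ₖ Y₀) * tpow n ρ * (X₁ ⊗ₖ Y₁)ᴴ) ^ 4 ≤
      weight (tpow n ρ) X₀ Y₀ * weight (tpow n ρ) X₀ Y₁ * weight (tpow n ρ) X₁ Y₀ *
        weight (tpow n ρ) X₁ Y₁ := by
  have hρn : (tpow n ρ).PosSemidef := by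
    rw [tpow_eq]
    exact tp_posSemidef fun _ => hρ
  exact test_of_balanced hρn X₀ X₁ Y₀ Y₁ fun x y _ _ =>
    balanced ρ hρ σ K hK hσH hsum hU hV la lb hD hH α β hα hβ hσ n S _ _ _ _
      (hX₀.smul x) (hX₁.smul _) (hY₀.smul y) (hY₁.smul _)

end Vale.Agent.P372.LD
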