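import Vale.Agent.P372.H268.Mk
import Vale.Agent.P372.H268.Main

open Matrix Kronecker
open scoped ComplexOrder MatrixOrder

set_option linter.unusedSectionVars false
set_option linter.unusedSimpArgs false

namespace Vale.Agent.P372.LD

/-- `1/2` on the two letters different from `z`. -/
noncomputable def Pm (z : Fin 3) : Matrix (Fin 3) (Fin 3) ℂ :=
  diagonal fun x => if x = z then 0 else 1 / 2

/-- `θ` between the two letters different from `z`. -/
noncomputable def Xm (θ : ℝ) (z : Fin 3) : Matrix (Fin 3) (Fin 3) ℂ := fun x y =>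
  if x ≠ y ∧ x ≠ z ∧ y ≠ z then (θ : ℂ) else 0

/-- `θ` between all pairs of letters. -/
noncomputable def Xa (θ : ℝ) : Matrix (Fin 3) (Fin 3) ℂ := fun x y =>
  if x ≠ y then (θ : ℂ) else 0

noncomputable def Ym (τ : ℝ) (z : Fin 3) : Matrix (Fin 3) (Fin 3) ℂ := fun x p =>
  if p = z ∨ x = p then 0 else if x = z then -(τ : ℂ) else (τ : ℂ)

/-- Signs: `1` and `-1` on the two letters different from `x`. -/
noncomputable def es (x z : Fin 3) : ℂ := if z = x then 0 else if z = x + 1 then 1 else -1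

/-- The indicator of `z ≠ x`. -/
noncomputable def ind (x z : Fin 3) : ℂ := if z = x then 0 else 1

theorem Km_eq {θ τ : ℝ} (h : 2 * τ * (1 - θ) = θ) (z : Fin 3) :
    1 * Ym τ z + Xa θ * Pm z + Xa θ * Ym τ z = Xm θ z := by
  have h' : 2 * (τ : ℂ) * (1 - θ) = θ := by exact_mod_cast h
  ext x y
  simp only [Matrix.one_mul, Matrix.add_apply, Matrix.mul_apply, Fin.sum_univ_three, Xa, Pm, Ym,
    Xm, diagonal_apply]
  fin_cases z <;> fin_cases x <;> fin_cases y <;> simp <;>
    first | linear_combination h' / 2 | linear_combination -h' / 2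

theorem PP_diag (z z' x : Fin 3) : (Pm z * Pm z') x x = 1 / 4 * (ind x z * ind x z') := by
  simp only [Pm, diagonal_mul_diagonal, diagonal_apply_eq, ind, eq_comm (a := x)]
  split_ifs <;> norm_num

theorem XY_diag {θ τ : ℝ} (z z' x : Fin 3) :
    (Pm z * Ym τ z' + Xm θ z * Pm z' + Xm θ z * Ym τ z') x x = θ * τ * (es x z * es x z') := by
  simp only [Matrix.add_apply, Matrix.mul_apply, Fin.sum_univ_three, Xm, Pm, Ym, es,
    diagonal_apply]
  fin_cases z <;> fin_cases z' <;> fin_cases x <;> simp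

theorem es_ind (x z z' : Fin 3) : 1 / 4 * (ind x z * ind x z' + es x z * es x z') =
    if z = z' then Pm z x x else 0 := by
  simp only [es, ind, Pm, diagonal_apply_eq]
  fin_cases z <;> fin_cases z' <;> fin_cases x <;> simp <;> norm_num

/-- In the cell of two different letters the labels are equal. -/
theorem third {x y z z' : Fin 3} (hxy : x ≠ y) (h1 : z ≠ x ∧ z ≠ y) (h2 : z' ≠ x ∧ z' ≠ y) :
    z = z' := by
  omega

section local_

variable (d : ℕ)

/-- The swap of the two systems. -/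
def sw : Matrix (Fin d × Fin d) (Fin d × Fin d) ℂ := fun p q =>
  if p.1 = q.2 ∧ p.2 = q.1 then 1 else 0

theorem sw_mul : sw d * sw d = 1 := by
  ext ⟨a, b⟩ ⟨c, e⟩
  simp only [sw, Matrix.mul_apply, Fintype.sum_prod_type, Matrix.one_apply, Prod.mk.injEq]
  rw [Finset.sum_eq_single b, Finset.sum_eq_single a]
  · by_cases h : a = c ∧ b = e
    · simp [h]
    · rw [if_neg h]
      by_cases h1 : b = e
      · have h2 : ¬ a = c := fun h' => h ⟨h', h1⟩
        simp [h1, h2]
      · simp [h1]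
  · intro x _ hx
    simp [Ne.symm hx]
  · simp
  · intro x _ hx
    refine Finset.sum_eq_zero fun y _ => ?_
    simp [Ne.symm hx]
  · simp

theorem sw_herm : (sw d)ᴴ = sw d := by
  ext ⟨a, b⟩ ⟨c, e⟩
  simp only [sw, conjTranspose_apply]
  by_cases h : a = e ∧ b = c
  · simp [h]
  · have : ¬ (c = b ∧ e = a) := fun h' => h ⟨h'.2.symm, h'.1.symm⟩
    simp [h, this]

/-- `1/4 + κ F` is positive semidefinite for `|κ| ≤ 1/4`. -/
theorem sw_psd {κ : ℝ} (h1 : |κ| ≤ 1 / 4) :
    (((1 / 4 : ℝ) : ℂ) • (1 : Matrix (Fin d × Fin d) (Fin d × Fin d) ℂ) +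
      (κ : ℂ) • sw d).PosSemidef := by
  obtain ⟨hl, hu⟩ := abs_le.mp h1
  have e1 : ((1 : Matrix (Fin d × Fin d) (Fin d × Fin d) ℂ) + sw d)ᴴ * (1 + sw d) =
      (2 : ℂ) • (1 + sw d) := by
    rw [conjTranspose_add, conjTranspose_one, sw_herm, Matrix.add_mul, Matrix.mul_add,
      Matrix.mul_add, sw_mul, Matrix.one_mul, Matrix.mul_one, Matrix.one_mul, two_smul]
    abel
  have e2 : ((1 : Matrix (Fin d × Fin d) (Fin d × Fin d) ℂ) - sw d)ᴴ * (1 - sw d) =
      (2 : ℂ) • (1 - sw d) := by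
    rw [conjTranspose_sub, conjTranspose_one, sw_herm, Matrix.sub_mul, Matrix.mul_sub,
      Matrix.mul_sub, sw_mul, Matrix.one_mul, Matrix.mul_one, Matrix.one_mul, two_smul]
    abel
  have e3 : ((1 / 4 : ℝ) : ℂ) • (1 : Matrix (Fin d × Fin d) (Fin d × Fin d) ℂ) +
      (κ : ℂ) • sw d = ((1 / 4 * (1 / 4 + κ) : ℝ) : ℂ) • ((1 + sw d)ᴴ * (1 + sw d)) +
        ((1 / 4 * (1 / 4 - κ) : ℝ) : ℂ) • ((1 - sw d)ᴴ * (1 - sw d)) := by
    rw [e1, e2, smul_smul, smul_smul, smul_add, smul_sub]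
    have : ∀ M N : Matrix (Fin d × Fin d) (Fin d × Fin d) ℂ,
        ((1 / 4 : ℝ) : ℂ) • M + (κ : ℂ) • N =
        (((1 / 4 * (1 / 4 + κ) : ℝ) : ℂ) * 2) • M + (((1 / 4 * (1 / 4 + κ) : ℝ) : ℂ) * 2) • N +
        ((((1 / 4 * (1 / 4 - κ) : ℝ) : ℂ) * 2) • M - (((1 / 4 * (1 / 4 - κ) : ℝ) : ℂ) * 2) • N) := by
      intro M N
      ext p q
      simp only [Matrix.add_apply, Matrix.sub_apply, Matrix.smul_apply, smul_eq_mul]
      push_cast
      ring
    exact this _ _
  rw [e3]
  exact ((posSemidef_conjTranspose_mul_self _).smul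
      (by exact_mod_cast (by linarith : (0 : ℝ) ≤ 1 / 4 * (1 / 4 + κ)))).add
    ((posSemidef_conjTranspose_mul_self _).smul
      (by exact_mod_cast (by linarith : (0 : ℝ) ≤ 1 / 4 * (1 / 4 - κ))))

end local_

section data

variable (d : ℕ) (θ τ : ℝ) (c : Fin 3 → Fin 3 → ℝ)

/-- The (unnormalised) state. -/
noncomputable def rho : Matrix ((Fin 3 × Fin d) × (Fin 3 × Fin d))
    ((Fin 3 × Fin d) × (Fin 3 × Fin d)) ℂ :=
  mk (Fin d) 1 (Xa θ) fun x y => (c x y : ℂ)

/-- The labels: the part of the state with letters different from `z`. -/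
noncomputable def lab (z : Fin 3) : Matrix ((Fin 3 × Fin d) × (Fin 3 × Fin d))
    ((Fin 3 × Fin d) × (Fin 3 × Fin d)) ℂ :=
  mk (Fin d) (Pm z) (Xm θ z) fun x y => if x = z ∨ y = z then 0 else (c x y : ℂ)

noncomputable def klab (z : Fin 3) : Matrix ((Fin 3 × Fin d) × (Fin 3 × Fin d))
    ((Fin 3 × Fin d) × (Fin 3 × Fin d)) ℂ :=
  mk (Fin d) (Pm z) (Ym τ z) fun x y => if x = z ∨ y = z then 0 else 1

variable {d θ τ c}

theorem rho_mul_klab (hd : 0 < d) (h : 2 * τ * (1 - θ) = θ) (z : Fin 3) :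
    rho d θ c * klab d τ z = lab d θ c z := by
  have : Nonempty (Fin d) := ⟨⟨0, hd⟩⟩
  rw [rho, klab, mk_mul, Km_eq h, Matrix.one_mul, lab]
  congr 1
  funext x y
  split_ifs <;> simp

theorem lab_herm (z : Fin 3) : (lab d θ c z)ᴴ = lab d θ c z := by
  rw [lab, mk_conjTranspose]
  congr 1
  · rw [Pm, diagonal_conjTranspose]
    congr 1
    funext x
    simp only [Pi.star_apply]
    split_ifs <;> simp
  · ext x y
    simp only [Xm, conjTranspose_apply]
    by_cases h : x ≠ y ∧ x ≠ z ∧ y ≠ z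
    · rw [if_pos h, if_pos ⟨h.1.symm, h.2.2, h.2.1⟩]
      simp
    · rw [if_neg h, if_neg (fun h' => h ⟨h'.1.symm, h'.2.2, h'.2.1⟩)]
      simp
  · funext x y
    split_ifs <;> simp

theorem lab_sum : ∑ z, lab d θ c z = rho d θ c := by
  rw [Fin.sum_univ_three]
  simp only [lab]
  rw [mk_add, mk_add, rho]
  have h1 : Pm 0 + Pm 1 + Pm 2 = 1 := by
    ext x y
    simp only [Pm, Matrix.add_apply, diagonal_apply, Matrix.one_apply]
    fin_cases x <;> fin_cases y <;> simp <;> norm_num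
  have h2 : Xm θ 0 + Xm θ 1 + Xm θ 2 = Xa θ := by
    ext x y
    simp only [Xm, Xa, Matrix.add_apply]
    fin_cases x <;> fin_cases y <;> simp
  rw [h1, h2]
  refine mk_congr fun x y hxy => ?_
  fin_cases x <;> fin_cases y <;> simp at hxy ⊢

/-- The vector of the same-letter cells, with signs. -/
noncomputable def rv (w : Fin 3 × ((Fin 3 × Fin d) × (Fin 3 × Fin d))) : ℂ :=
  if w.2.1.1 = w.2.2.1 then es w.2.1.1 w.1 else 0

/-- The vector of the same-letter cells, without signs. -/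
noncomputable def rw' (w : Fin 3 × ((Fin 3 × Fin d) × (Fin 3 × Fin d))) : ℂ :=
  if w.2.1.1 = w.2.2.1 then ind w.2.1.1 w.1 else 0

/-- The matrix `1/4 + κ F` on the shields. -/
noncomputable def Nm (d : ℕ) (κ : ℝ) : Matrix (Fin d × Fin d) (Fin d × Fin d) ℂ :=
  ((1 / 4 : ℝ) : ℂ) • (1 : Matrix (Fin d × Fin d) (Fin d × Fin d) ℂ) + (κ : ℂ) • sw d

/-- The shields. -/
def fsh (w : Fin 3 × ((Fin 3 × Fin d) × (Fin 3 × Fin d))) : Fin d × Fin d := (w.2.1.2, w.2.2.2)

/-- Alice's letter. -/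
def flt (w : Fin 3 × ((Fin 3 × Fin d) × (Fin 3 × Fin d))) : Fin 3 := w.2.1.1

noncomputable def cell (c : Fin 3 → Fin 3 → ℝ)
    (w : Fin 3 × ((Fin 3 × Fin d) × (Fin 3 × Fin d))) : ℝ :=
  if w.2.1.1 ≠ w.2.2.1 ∧ w.1 ≠ w.2.1.1 ∧ w.1 ≠ w.2.2.1 then c w.2.1.1 w.2.2.1 else 0

/-- Half of `D - H`. -/
noncomputable def Vm (d : ℕ) (κ : ℝ) : Matrix (Fin 3 × ((Fin 3 × Fin d) × (Fin 3 × Fin d)))
    (Fin 3 × ((Fin 3 × Fin d) × (Fin 3 × Fin d))) ℂ :=
  ((1 / 2 : ℝ) : ℂ) • ((vecMulVec rv (star rv) ⊙ (Nm d (-κ)).submatrix fsh fsh) ⊙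
    (1 : Matrix (Fin 3) (Fin 3) ℂ).submatrix flt flt)

/-- Half of `D + H`. -/
noncomputable def Um (d : ℕ) (κ : ℝ) (c : Fin 3 → Fin 3 → ℝ) :
    Matrix (Fin 3 × ((Fin 3 × Fin d) × (Fin 3 × Fin d)))
    (Fin 3 × ((Fin 3 × Fin d) × (Fin 3 × Fin d))) ℂ :=
  ((1 / 2 : ℝ) : ℂ) • ((vecMulVec rv (star rv) ⊙ (Nm d κ).submatrix fsh fsh) ⊙
    (1 : Matrix (Fin 3) (Fin 3) ℂ).submatrix flt flt) +
  ((1 / 4 : ℝ) : ℂ) • ((vecMulVec rw' (star rw') ⊙
    (1 : Matrix (Fin d × Fin d) (Fin d × Fin d) ℂ).submatrix fsh fsh) ⊙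
    (1 : Matrix (Fin 3) (Fin 3) ℂ).submatrix flt flt) +
  diagonal fun w => (cell c w : ℂ)

theorem Vm_psd {κ : ℝ} (h : |κ| ≤ 1 / 4) : (Vm d κ).PosSemidef := by
  refine PosSemidef.smul (((posSemidef_vecMulVec_self_star _).hadamard
    ((sw_psd d (by rwa [abs_neg])).submatrix _)).hadamard (PosSemidef.one.submatrix _)) ?_
  exact_mod_cast (by norm_num : (0 : ℝ) ≤ 1 / 2)

theorem Um_psd {κ : ℝ} (h : |κ| ≤ 1 / 4) (hc : ∀ x y, 0 ≤ c x y) :
    (Um d κ c).PosSemidef := by
  refine ((PosSemidef.smul (((posSemidef_vecMulVec_self_star _).hadamard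
    ((sw_psd d h).submatrix _)).hadamard (PosSemidef.one.submatrix _)) ?_).add
    (PosSemidef.smul (((posSemidef_vecMulVec_self_star _).hadamard
    (PosSemidef.one.submatrix _)).hadamard (PosSemidef.one.submatrix _)) ?_)).add
    (PosSemidef.diagonal fun w => ?_)
  · exact_mod_cast (by norm_num : (0 : ℝ) ≤ 1 / 2)
  · exact_mod_cast (by norm_num : (0 : ℝ) ≤ 1 / 4)
  · have : 0 ≤ cell c w := by
      unfold cell
      split_ifs
      · exact hc _ _
      · exact le_rfl
    exact Complex.zero_le_real.mpr this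

theorem star_es (x z : Fin 3) : star (es x z) = es x z := by
  unfold es
  split_ifs <;> simp

theorem star_ind (x z : Fin 3) : star (ind x z) = ind x z := by
  unfold ind
  split_ifs <;> simp

theorem star_rv (w : Fin 3 × ((Fin 3 × Fin d) × (Fin 3 × Fin d))) : star (rv w) = rv w := by
  unfold rv
  split_ifs
  · exact star_es _ _
  · simp

theorem star_rw' (w : Fin 3 × ((Fin 3 × Fin d) × (Fin 3 × Fin d))) : star (rw' w) = rw' w := by
  unfold rw'
  split_ifs
  · exact star_ind _ _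
  · simp

theorem add_entry {κ : ℝ} (w w' : Fin 3 × ((Fin 3 × Fin d) × (Fin 3 × Fin d))) :
    (Um d κ c + Vm d κ) w w' = (if flt w = flt w' then (if fsh w = fsh w' then
      1 / 4 * (rw' w * rw' w' + rv w * rv w') else 0) else 0) +
      if w = w' then (cell c w : ℂ) else 0 := by
  simp only [Um, Vm, Nm, Matrix.add_apply, Matrix.smul_apply, hadamard_apply, submatrix_apply,
    vecMulVec_apply, Pi.star_apply, diagonal_apply, Matrix.one_apply, smul_eq_mul, star_rv,
    star_rw']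
  by_cases h1 : flt w = flt w'
  · by_cases h2 : fsh w = fsh w'
    · simp only [h1, h2, if_true]
      push_cast
      ring
    · simp only [h1, h2, if_true, if_false]
      push_cast
      ring
  · simp only [h1, if_false]
    ring

theorem sub_entry {κ : ℝ} (w w' : Fin 3 × ((Fin 3 × Fin d) × (Fin 3 × Fin d))) :
    (Um d κ c - Vm d κ) w w' = (if flt w = flt w' then ((if fsh w = fsh w' then
      1 / 4 * (rw' w * rw' w') else 0) + κ * (rv w * rv w') * sw d (fsh w) (fsh w')) else 0) +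
      if w = w' then (cell c w : ℂ) else 0 := by
  simp only [Um, Vm, Nm, Matrix.add_apply, Matrix.sub_apply, Matrix.smul_apply, hadamard_apply,
    submatrix_apply, vecMulVec_apply, Pi.star_apply, diagonal_apply, Matrix.one_apply,
    smul_eq_mul, star_rv, star_rw']
  by_cases h1 : flt w = flt w'
  · by_cases h2 : fsh w = fsh w'
    · simp only [h1, h2, if_true]
      push_cast
      ring
    · simp only [h1, h2, if_true, if_false]
      push_cast
      ring
  · simp only [h1, if_false]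
    ring

/-- The entries of a structured operator, after the partial transpose, when the letters of one
party agree. -/
theorem mk_entry (u v : Matrix (Fin 3) (Fin 3) ℂ) (g : Fin 3 → Fin 3 → ℂ)
    (a b a' b' : Fin 3 × Fin d) (h : a.1 = a'.1 ∨ b.1 = b'.1) :
    mk (Fin d) u v g (a, b') (a', b) = if a.1 = a'.1 ∧ b.1 = b'.1 then
      (if a.1 = b.1 then (u a.1 a.1 * (if (a.2, b.2) = (a'.2, b'.2) then 1 else 0) +
        v a.1 a.1 * ((d : ℂ)⁻¹ * sw d (a.2, b.2) (a'.2, b'.2))) else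
        if (a.2, b.2) = (a'.2, b'.2) then g a.1 b.1 else 0) else 0 := by
  obtain ⟨x, s⟩ := a
  obtain ⟨y, t⟩ := b
  obtain ⟨x', s'⟩ := a'
  obtain ⟨y', t'⟩ := b'
  simp only at h
  simp only [mk, Fintype.card_fin, Prod.mk.injEq, sw]
  by_cases hxy : x = x' ∧ y = y'
  · obtain ⟨rfl, rfl⟩ := hxy
    by_cases hd : x = y
    · subst hd
      simp only [and_self, if_true, ne_eq, not_true_eq_false, and_false, if_false, add_zero]
      have e1 : (s = s' ∧ t' = t) ↔ (s = s' ∧ t = t') := by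
        constructor <;> rintro ⟨h1, h2⟩ <;> exact ⟨h1, h2.symm⟩
      have e2 : (s = t' ∧ s' = t) ↔ (s = t' ∧ t = s') := by
        constructor <;> rintro ⟨h1, h2⟩ <;> exact ⟨h1, h2.symm⟩
      simp only [e1, e2]
      split_ifs <;> simp
    · have hd' : ¬ (x = y ∧ x = y) := fun h => hd h.1
      simp only [hd, hd', if_false, zero_add, true_and, and_self, if_true, ne_eq,
        not_false_eq_true, and_true]
      have e1 : (s = s' ∧ t' = t) ↔ (s = s' ∧ t = t') := by
        constructor <;> rintro ⟨h1, h2⟩ <;> exact ⟨h1, h2.symm⟩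
      simp only [e1]
  · rw [if_neg hxy]
    have h1 : ¬ (x = y' ∧ x' = y) := by
      rintro ⟨rfl, rfl⟩
      rcases h with h | h
      · exact hxy ⟨h, h.symm⟩
      · exact hxy ⟨h.symm, h⟩
    have h2 : ¬ (((x = x' ∧ s = s') ∧ y' = y ∧ t' = t) ∧ x ≠ y') := by
      rintro ⟨⟨⟨h1, _⟩, h2, _⟩, _⟩
      exact hxy ⟨h1, h2.symm⟩
    rw [if_neg h1, if_neg h2, zero_add]

/-- The entries of `D`. -/
theorem D_entry {κ : ℝ} (z z' : Fin 3) (a b a' b' : Fin 3 × Fin d)
    (h : a.1 = a'.1 ∨ b.1 = b'.1) :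
    (Um d κ c + Vm d κ) (z, (a, b)) (z', (a', b')) =
      if z = z' then lab d θ c z (a, b') (a', b) else 0 := by
  rw [add_entry, lab, mk_entry _ _ _ _ _ _ _ h]
  obtain ⟨x, s⟩ := a
  obtain ⟨y, t⟩ := b
  obtain ⟨x', s'⟩ := a'
  obtain ⟨y', t'⟩ := b'
  simp only at h
  simp only [rv, rw', fsh, flt, cell, Prod.mk.injEq]
  by_cases hxy : x = x' ∧ y = y'
  · obtain ⟨rfl, rfl⟩ := hxy
    by_cases hd : x = y
    · subst hd
      have h1 := es_ind x z z'
      have h2 : Xm θ z x x = 0 := by simp [Xm]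
      simp only [if_true, and_self, ne_eq, not_true_eq_false, false_and, if_false,
        Complex.ofReal_zero, ite_self, add_zero, h2, zero_mul, h1]
      split_ifs <;> simp
    · simp only [hd, if_false, mul_zero, add_zero, ite_self, zero_add, if_true, ne_eq,
        not_false_eq_true, true_and, and_self]
      by_cases hz : z = z'
      · subst hz
        simp only [true_and, if_true]
        by_cases hst : s = s' ∧ t = t'
        · simp only [hst, and_self, if_true]
          by_cases hzz : x = z ∨ y = z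
          · have h3 : ¬ (¬ z = x ∧ ¬ z = y) := by
              rintro ⟨h4, h5⟩
              rcases hzz with rfl | rfl
              · exact h4 rfl
              · exact h5 rfl
            rw [if_pos hzz, if_neg h3, Complex.ofReal_zero]
          · have h3 : ¬ z = x ∧ ¬ z = y := by
              push Not at hzz
              exact ⟨Ne.symm hzz.1, Ne.symm hzz.2⟩
            rw [if_neg hzz, if_pos h3]
        · simp [hst]
      · simp [hz]
  · have h1 : ¬ (x = x' ∧ y = y') := hxy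
    simp only [h1, if_false, ite_self]
    have h2 : ¬ (z = z' ∧ (x = x' ∧ s = s') ∧ y = y' ∧ t = t') := fun h => h1 ⟨h.2.1.1, h.2.2.1⟩
    rw [if_neg h2, add_zero]
    by_cases hx : x = x'
    · have hy : ¬ y = y' := fun h => h1 ⟨hx, h⟩
      subst hx
      simp only [if_true]
      by_cases h3 : x = y
      · have h4 : ¬ x = y' := fun h => hy (h3.symm.trans h)
        simp [h4]
      · simp [h3]
    · simp [hx]

theorem lab_mul_klab (hd : 0 < d) (z z' : Fin 3) :
    lab d θ c z * klab d τ z' = mk (Fin d) (Pm z * Pm z')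
      (Pm z * Ym τ z' + Xm θ z * Pm z' + Xm θ z * Ym τ z')
      (fun x y => (if x = z ∨ y = z then 0 else (c x y : ℂ)) * if x = z' ∨ y = z' then 0 else 1) := by
  have : Nonempty (Fin d) := ⟨⟨0, hd⟩⟩
  rw [lab, klab, mk_mul]

/-- The entries of `H`. -/
theorem H_entry (hd : 0 < d) (z z' : Fin 3) (a b a' b' : Fin 3 × Fin d)
    (h : a.1 = a'.1 ∨ b.1 = b'.1) :
    (Um d (θ * τ / d) c - Vm d (θ * τ / d)) (z, (a, b)) (z', (a', b')) =
      (lab d θ c z * klab d τ z') (a, b') (a', b) := by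
  rw [sub_entry, lab_mul_klab hd, mk_entry _ _ _ _ _ _ _ h]
  obtain ⟨x, s⟩ := a
  obtain ⟨y, t⟩ := b
  obtain ⟨x', s'⟩ := a'
  obtain ⟨y', t'⟩ := b'
  simp only at h
  simp only [rv, rw', fsh, flt, cell, Prod.mk.injEq]
  by_cases hxy : x = x' ∧ y = y'
  · obtain ⟨rfl, rfl⟩ := hxy
    by_cases hd : x = y
    · subst hd
      simp only [if_true, and_self, ne_eq, not_true_eq_false, false_and, if_false,
        Complex.ofReal_zero, ite_self, add_zero, PP_diag, XY_diag]
      by_cases hst : s = s' ∧ t = t'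
      · simp only [hst, and_self, if_true]
        push_cast
        ring
      · simp only [hst, if_false]
        push_cast
        ring
    · simp only [hd, if_false, mul_zero, add_zero, ite_self, zero_add, if_true, ne_eq,
        not_false_eq_true, true_and, and_self, zero_mul]
      by_cases hst : s = s' ∧ t = t'
      · simp only [hst, and_self, if_true, and_true]
        by_cases hz : z = z'
        · subst hz
          by_cases hzz : x = z ∨ y = z
          · have h3 : ¬ (¬ z = x ∧ ¬ z = y) := by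
              rintro ⟨h4, h5⟩
              rcases hzz with rfl | rfl
              · exact h4 rfl
              · exact h5 rfl
            simp [hzz, h3]
          · have h3 : ¬ z = x ∧ ¬ z = y := by
              push Not at hzz
              exact ⟨Ne.symm hzz.1, Ne.symm hzz.2⟩
            simp [hzz, h3]
        · rw [if_neg hz]
          by_cases hzz : x = z ∨ y = z
          · simp [hzz]
          · by_cases hzz' : x = z' ∨ y = z'
            · simp [hzz']
            · exfalso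
              push Not at hzz hzz'
              exact hz (third hd ⟨Ne.symm hzz.1, Ne.symm hzz.2⟩ ⟨Ne.symm hzz'.1, Ne.symm hzz'.2⟩)
      · simp [hst]
  · have h1 : ¬ (x = x' ∧ y = y') := hxy
    simp only [h1, if_false, ite_self]
    have h2 : ¬ (z = z' ∧ (x = x' ∧ s = s') ∧ y = y' ∧ t = t') := fun h => h1 ⟨h.2.1.1, h.2.2.1⟩
    rw [if_neg h2, add_zero]
    by_cases hx : x = x'
    · have hy : ¬ y = y' := fun h => h1 ⟨hx, h⟩
      subst hx
      simp only [if_true]
      by_cases h3 : x = y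
      · have h4 : ¬ x = y' := fun h => hy (h3.symm.trans h)
        simp [h4]
      · simp [h3]
    · simp [hx]

/-- Alice's factor of the label `z`. -/
noncomputable def al (c : Fin 3 → Fin 3 → ℝ) (z : Fin 3) (a : Fin 3 × Fin d) : ℝ :=
  if a.1 = z then 0 else if a.1 = z + 1 then 1 else 2 * c (z + 2) (z + 1)

/-- Bob's factor of the label `z`. -/
noncomputable def be (c : Fin 3 → Fin 3 → ℝ) (z : Fin 3) (b : Fin 3 × Fin d) : ℝ :=
  if b.1 = z then 0 else if b.1 = z + 1 then 1 / 2 else c (z + 1) (z + 2)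

theorem al_mul_be (hc : ∀ x y, x ≠ y → c x y * c y x = 1 / 4) (z x y : Fin 3) (s t : Fin d) :
    ((al c z (x, s) * be c z (y, t) : ℝ) : ℂ) =
      if x = y then Pm z x x else if x = z ∨ y = z then 0 else (c x y : ℂ) := by
  have h : al c z (x, s) * be c z (y, t) =
      if x = y then (if x = z then 0 else 1 / 2) else if x = z ∨ y = z then 0 else c x y := by
    have h0 := hc 0 1 (by decide)
    have h1 := hc 1 2 (by decide)
    have h2 := hc 2 0 (by decide)
    simp only [al, be]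
    fin_cases z <;> fin_cases x <;> fin_cases y <;> simp <;> linarith
  rw [h]
  simp only [Pm, diagonal_apply_eq]
  split_ifs <;> simp

theorem prod_entry (hc : ∀ x y, x ≠ y → c x y * c y x = 1 / 4) (z : Fin 3)
    (a b a' b' : Fin 3 × Fin d) (h : a.1 = a'.1 ∨ b.1 = b'.1) :
    lab d θ c z (a, b') (a', b) =
      if a = a' ∧ b = b' then ((al c z a * be c z b : ℝ) : ℂ) else 0 := by
  rw [lab, mk_entry _ _ _ _ _ _ _ h]
  obtain ⟨x, s⟩ := a
  obtain ⟨y, t⟩ := b
  obtain ⟨x', s'⟩ := a'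
  obtain ⟨y', t'⟩ := b'
  simp only at h
  rw [al_mul_be hc]
  have h2 : Xm θ z x x = 0 := by simp [Xm]
  simp only [h2, zero_mul, add_zero, Prod.mk.injEq]
  by_cases hxy : x = x' ∧ y = y'
  · obtain ⟨rfl, rfl⟩ := hxy
    by_cases hst : s = s' ∧ t = t'
    · simp [hst]
    · have : ¬ ((x = x ∧ s = s') ∧ y = y ∧ t = t') := fun h => hst ⟨h.1.2, h.2.2⟩
      rw [if_neg this]
      simp [hst]
  · have : ¬ ((x = x' ∧ s = s') ∧ y = y' ∧ t = t') := fun h => hxy ⟨h.1.1, h.2.1⟩
    rw [if_neg this, if_neg hxy]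

theorem mk_diag (t : ℝ) (c : Fin 3 → Fin 3 → ℝ) :
    mk (Fin d) ((t : ℂ) • (1 : Matrix (Fin 3) (Fin 3) ℂ)) 0 (fun x y => (c x y : ℂ)) =
      diagonal fun p => ((if p.1.1 = p.2.1 then t else c p.1.1 p.2.1 : ℝ) : ℂ) := by
  ext ⟨⟨x, s⟩, ⟨y, t'⟩⟩ ⟨⟨x', s'⟩, ⟨y', t''⟩⟩
  simp only [mk, Matrix.smul_apply, Matrix.one_apply, Matrix.zero_apply, zero_mul, add_zero,
    diagonal_apply, Prod.mk.injEq, smul_eq_mul]
  by_cases h : (x = x' ∧ s = s') ∧ y = y' ∧ t' = t''
  · obtain ⟨⟨rfl, rfl⟩, rfl, rfl⟩ := h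
    by_cases h1 : x = y
    · simp [h1]
    · simp [h1]
  · simp only [h, false_and, if_false, add_zero]
    by_cases h1 : x = y ∧ x' = y'
    · rw [if_pos h1]
      by_cases h2 : x = x'
      · have h3 : ¬ (s = s' ∧ t' = t'') := by
          rintro ⟨h4, h5⟩
          exact h ⟨⟨h2, h4⟩, h1.1.symm.trans (h2.trans h1.2), h5⟩
        simp [h3]
      · simp [h2]
    · rw [if_neg h1]

/-- The matrix with all entries equal to one. -/
noncomputable def Jm : Matrix (Fin 3) (Fin 3) ℂ := Matrix.of fun _ _ => 1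

theorem mk_smul (r : ℂ) (u v : Matrix (Fin 3) (Fin 3) ℂ) (g : Fin 3 → Fin 3 → ℂ) :
    r • mk (Fin d) u v g = mk (Fin d) (r • u) (r • v) (fun x y => r * g x y) := by
  ext p q
  simp only [mk, Matrix.smul_apply, smul_eq_mul]
  split_ifs <;> ring

theorem rho_posDef (h0 : 0 ≤ θ) (h1 : θ < 1) (hd : 0 < d) (hc : ∀ x y, 0 < c x y) :
    (rho d θ c).PosDef := by
  have : Nonempty (Fin d) := ⟨⟨0, hd⟩⟩
  have e0 : rho d θ c = mk (Fin d) (((1 - θ : ℝ) : ℂ) • (1 : Matrix (Fin 3) (Fin 3) ℂ)) 0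
      (fun x y => (c x y : ℂ)) + ((θ : ℂ) • mk (Fin d) 1 (-1) (fun _ _ => 0) +
      ((θ / 3 : ℝ) : ℂ) • ((mk (Fin d) 0 Jm (fun _ _ => 0))ᴴ * mk (Fin d) 0 Jm (fun _ _ => 0))) := by
    have e1 : (mk (Fin d) 0 Jm (fun _ _ => 0))ᴴ * mk (Fin d) 0 Jm (fun _ _ => 0) =
        mk (Fin d) 0 ((3 : ℂ) • Jm) (fun _ _ => 0) := by
      rw [mk_conjTranspose, mk_mul]
      congr 1
      · simp
      · ext x y
        simp [Jm, Matrix.mul_apply]
      · funext x y
        simp
    rw [e1, mk_smul, mk_smul, mk_add, mk_add, rho]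
    congr 1
    · ext x y
      simp only [Matrix.add_apply, Matrix.smul_apply, smul_eq_mul, Matrix.zero_apply]
      push_cast
      ring
    · ext x y
      simp only [Matrix.add_apply, Matrix.smul_apply, smul_eq_mul, Matrix.zero_apply,
        Matrix.neg_apply, Matrix.one_apply, Xa, Jm, Matrix.of_apply]
      push_cast
      by_cases h : x = y
      · simp only [h, ne_eq, not_true_eq_false, if_false, if_true]
        ring
      · simp only [h, ne_eq, not_false_eq_true, if_true, if_false]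
        ring
    · funext x y
      simp
  have e2 : (mk (Fin d) (1 : Matrix (Fin 3) (Fin 3) ℂ) (-1) (fun _ _ => 0))ᴴ *
      mk (Fin d) 1 (-1) (fun _ _ => 0) = mk (Fin d) 1 (-1) (fun _ _ => 0) := by
    rw [mk_conjTranspose, mk_mul]
    congr 1
    · simp
    · simp
    · funext x y
      simp
  rw [e0, ← e2]
  refine PosDef.add_posSemidef ?_ (((posSemidef_conjTranspose_mul_self _).smul ?_).add
    ((posSemidef_conjTranspose_mul_self _).smul ?_))
  · rw [mk_diag]
    refine PosDef.diagonal fun p => ?_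
    have : 0 < (if p.1.1 = p.2.1 then 1 - θ else c p.1.1 p.2.1) := by
      split_ifs
      · linarith
      · exact hc _ _
    exact Complex.zero_lt_real.mpr this
  · exact Complex.zero_le_real.mpr h0
  · exact Complex.zero_le_real.mpr (by positivity)

/-- No test succeeds for the state, in the block diagonal class. -/
theorem letter_n (h0 : 0 ≤ θ) (h1 : θ < 1) (hd : 0 < d) (hμ : 2 * θ ^ 2 ≤ d * (1 - θ))
    (hc1 : ∀ x y, 0 < c x y) (hc : ∀ x y, x ≠ y → c x y * c y x = 1 / 4)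
    (n : ℕ) (S : Set (Fin n))
    (X₀ X₁ : Matrix (Fin n → Fin 3 × Fin d) (Fin n → Fin 3 × Fin d) ℂ)
    (Y₀ Y₁ : Matrix (Fin n → Fin 3 × Fin d) (Fin n → Fin 3 × Fin d) ℂ)
    (hX₀ : Blk Prod.fst S (X₀ᴴ * X₀)) (hX₁ : Blk Prod.fst S (X₁ᴴ * X₁))
    (hY₀ : Blk Prod.fst Sᶜ (Y₀ᴴ * Y₀)) (hY₁ : Blk Prod.fst Sᶜ (Y₁ᴴ * Y₁)) :
    traceNorm ((X₀ ⊗ₖ Y₀) * tpow n (rho d θ c) * (X₁ ⊗ₖ Y₁)ᴴ) ^ 4 ≤
      weight (tpow n (rho d θ c)) X₀ Y₀ * weight (tpow n (rho d θ c)) X₀ Y₁ *
        weight (tpow n (rho d θ c)) X₁ Y₀ * weight (tpow n (rho d θ c)) X₁ Y₁ := by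
  have hc0 : ∀ x y, 0 ≤ c x y := fun x y => (hc1 x y).le
  have h1' : 0 < 1 - θ := by linarith
  have hd' : (0 : ℝ) < d := by exact_mod_cast hd
  set τ := θ / (2 * (1 - θ)) with hτ
  have hτ1 : 2 * τ * (1 - θ) = θ := by
    rw [hτ]
    field_simp
  have hκ : |θ * τ / d| ≤ 1 / 4 := by
    have hτ0 : 0 ≤ τ := by rw [hτ]; positivity
    rw [abs_of_nonneg (by positivity), div_le_iff₀ hd']
    have : θ * τ = θ ^ 2 / (2 * (1 - θ)) := by rw [hτ]; ring
    rw [this, div_le_iff₀ (by positivity)]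
    linarith
  refine main_abs (rho d θ c) (rho_posDef h0 h1 hd hc1).posSemidef (lab d θ c) (klab d τ)
    (rho_mul_klab hd hτ1) lab_herm lab_sum (Um_psd hκ hc0) (Vm_psd hκ) Prod.fst Prod.fst
    (fun z z' a b a' b' h => D_entry z z' a b a' b' h)
    (fun z z' a b a' b' h => H_entry hd z z' a b a' b' h) (al c) (be c) (fun z a => ?_)
    (fun z b => ?_) (fun z a b a' b' h => prod_entry hc z a b a' b' h) n S X₀ X₁ Y₀ Y₁ hX₀ hX₁
    hY₀ hY₁
  · unfold al
    split_ifs
    · exact le_rfl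
    · norm_num
    · have := hc0 (z + 2) (z + 1)
      linarith
  · unfold be
    split_ifs
    · exact le_rfl
    · norm_num
    · exact hc0 _ _

end data

end Vale.Agent.P372.LD
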