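import Vale.Agent.P372.H268.Sep
import Vale.Agent.P372.H268.Proto
import Vale.Agent.P372.R2.helper492.LetterDefs

open Matrix Kronecker
open scoped ComplexOrder MatrixOrder

set_option linter.unusedSectionVars false

namespace Vale.Agent.P372.LD

section scale

variable {A B : Type} [Fintype A] [DecidableEq A] [Fintype B] [DecidableEq B] {n : ℕ}

theorem tpow_smul (r : ℂ) (ρ : Matrix (A × B) (A × B) ℂ) : tpow n (r • ρ) = r ^ n • tpow n ρ := by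
  rw [tpow_eq, tpow_eq, tp_smul]
  simp

theorem test_smul {ρ : Matrix (A × B) (A × B) ℂ} {s : ℝ} (hs : 0 ≤ s)
    (X₀ X₁ : Matrix (Fin n → A) (Fin n → A) ℂ) (Y₀ Y₁ : Matrix (Fin n → B) (Fin n → B) ℂ)
    (h : traceNorm ((X₀ ⊗ₖ Y₀) * tpow n ρ * (X₁ ⊗ₖ Y₁)ᴴ) ^ 4 ≤
      weight (tpow n ρ) X₀ Y₀ * weight (tpow n ρ) X₀ Y₁ * weight (tpow n ρ) X₁ Y₀ *
        weight (tpow n ρ) X₁ Y₁) :
    traceNorm ((X₀ ⊗ₖ Y₀) * tpow n ((s : ℂ) • ρ) * (X₁ ⊗ₖ Y₁)ᴴ) ^ 4 ≤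
      weight (tpow n ((s : ℂ) • ρ)) X₀ Y₀ * weight (tpow n ((s : ℂ) • ρ)) X₀ Y₁ *
        weight (tpow n ((s : ℂ) • ρ)) X₁ Y₀ * weight (tpow n ((s : ℂ) • ρ)) X₁ Y₁ := by
  have e : tpow n ((s : ℂ) • ρ) = ((s ^ n : ℝ) : ℂ) • tpow n ρ := by
    rw [tpow_smul]
    push_cast
    rfl
  have ew : ∀ (X : Matrix (Fin n → A) (Fin n → A) ℂ) (Y : Matrix (Fin n → B) (Fin n → B) ℂ),
      weight (tpow n ((s : ℂ) • ρ)) X Y = s ^ n * weight (tpow n ρ) X Y := by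
    intro X Y
    rw [e, weight, Matrix.mul_smul, Matrix.smul_mul, trace_smul, smul_eq_mul,
      Complex.re_ofReal_mul, weight]
  rw [ew, ew, ew, ew, e, Matrix.mul_smul, Matrix.smul_mul, traceNorm_smul, Complex.norm_real,
    Real.norm_of_nonneg (pow_nonneg hs n)]
  have h4 : 0 ≤ (s ^ n) ^ 4 := by positivity
  calc (s ^ n * traceNorm ((X₀ ⊗ₖ Y₀) * tpow n ρ * (X₁ ⊗ₖ Y₁)ᴴ)) ^ 4
      = (s ^ n) ^ 4 * traceNorm ((X₀ ⊗ₖ Y₀) * tpow n ρ * (X₁ ⊗ₖ Y₁)ᴴ) ^ 4 := by ring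
    _ ≤ (s ^ n) ^ 4 * (weight (tpow n ρ) X₀ Y₀ * weight (tpow n ρ) X₀ Y₁ *
        weight (tpow n ρ) X₁ Y₀ * weight (tpow n ρ) X₁ Y₁) := mul_le_mul_of_nonneg_left h h4
    _ = _ := by ring

end scale

/-- The weights of the cells of different letters. -/
noncomputable def cw (d : ℕ) (x y : Fin 3) : ℝ := if y = x + 1 then 1 / (10 * d) else 5 * d / 2

theorem cw_pos {d : ℕ} (hd : 2 ≤ d) (x y : Fin 3) : 0 < cw d x y := by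
  have : (0 : ℝ) < d := by exact_mod_cast (by omega : 0 < d)
  unfold cw
  split_ifs <;> positivity

theorem cw_mul {d : ℕ} (hd : 2 ≤ d) (x y : Fin 3) (hxy : x ≠ y) : cw d x y * cw d y x = 1 / 4 := by
  have : (0 : ℝ) < d := by exact_mod_cast (by omega : 0 < d)
  unfold cw
  by_cases h : y = x + 1
  · have h' : ¬ x = y + 1 := by omega
    rw [if_pos h, if_neg h']
    field_simp
    norm_num
  · have h' : x = y + 1 := by omega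
    rw [if_neg h, if_pos h']
    field_simp
    norm_num

theorem ppt_letter (d : ℕ) (hd : 2 ≤ d) :
    ∃ ρ : Matrix ((Fin 3 × Fin d) × (Fin 3 × Fin d)) ((Fin 3 × Fin d) × (Fin 3 × Fin d)) ℂ,
      ρ.PosDef ∧ (pTrans ρ).PosDef ∧ ρ.trace = 1 ∧ ¬ IsSep ρ ∧
      (∀ (n : ℕ) (S : Set (Fin n))
        (X₀ X₁ Y₀ Y₁ : Matrix (Fin n → Fin 3 × Fin d) (Fin n → Fin 3 × Fin d) ℂ),
        LetterDiag S (X₀ᴴ * X₀) → LetterDiag S (X₁ᴴ * X₁) → LetterDiag Sᶜ (Y₀ᴴ * Y₀) →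
        LetterDiag Sᶜ (Y₁ᴴ * Y₁) → traceNorm ((X₀ ⊗ₖ Y₀) * tpow n ρ * (X₁ ⊗ₖ Y₁)ᴴ) ^ 4 ≤
          weight (tpow n ρ) X₀ Y₀ * weight (tpow n ρ) X₀ Y₁ * weight (tpow n ρ) X₁ Y₀ *
            weight (tpow n ρ) X₁ Y₁) ∧
      ∀ (E : Type) [Fintype E] [DecidableEq E] (Ψ : Matrix ((Fin 3 × Fin d) × (Fin 3 × Fin d)) E ℂ),
        Ψ * Ψᴴ = ρ → ∀ (n ℓ : ℕ), 0 < ℓ → ∀ (T : Type) [Fintype T]
          (f g : T → (Fin ℓ → Bool) → Matrix (Fin n → Fin 3 × Fin d) (Fin n → Fin 3 × Fin d) ℂ),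
          LOCC (Fin ℓ → Bool) (Fin n → Fin 3 × Fin d) (Fin n → Fin 3 × Fin d) T f g →
          (∀ t, ∃ S : Set (Fin n), (∀ k, LetterDiag S (f t k)) ∧ ∀ k, LetterDiag Sᶜ (g t k)) →
          ¬ KeyError f g (copies n Ψ) (1 / 64) := by
  have hd0 : 0 < d := by omega
  have hd1 : (0 : ℝ) < d := by exact_mod_cast hd0
  have hd2 : (2 : ℝ) ≤ d := by exact_mod_cast hd
  have h0 : (0 : ℝ) ≤ 3 / 5 := by norm_num
  have h1 : (3 / 5 : ℝ) < 1 := by norm_num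
  have hμ : 2 * (3 / 5 : ℝ) ^ 2 ≤ d * (1 - 3 / 5) := by norm_num; linarith
  have hP : (rho d (3 / 5) (cw d)).PosDef := rho_posDef h0 h1 hd0 (cw_pos hd)
  have hPt := pt_posDef (d := d) (θ := 3 / 5) (c := cw d) h0 (by linarith) (cw_pos hd) (cw_mul hd)
  have htr : (rho d (3 / 5) (cw d)).trace = ((rho d (3 / 5) (cw d)).trace.re : ℂ) := by
    have : ((rho d (3 / 5) (cw d)).trace) = star ((rho d (3 / 5) (cw d)).trace) := by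
      rw [← trace_conjTranspose, hP.isHermitian.eq]
    exact (Complex.conj_eq_iff_re.mp this.symm).symm
  have : Nonempty ((Fin 3 × Fin d) × (Fin 3 × Fin d)) := ⟨((0, ⟨0, hd0⟩), (0, ⟨0, hd0⟩))⟩
  have htp : 0 < (rho d (3 / 5) (cw d)).trace.re := by
    have := hP.trace_pos
    exact (Complex.lt_def.mp this).1
  set N := (rho d (3 / 5) (cw d)).trace.re with hN
  have hs : 0 < N⁻¹ := inv_pos.mpr htp
  have hsc : (0 : ℂ) < ((N⁻¹ : ℝ) : ℂ) := Complex.zero_lt_real.mpr hs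
  have hno : ∀ (n : ℕ) (S : Set (Fin n))
      (X₀ X₁ Y₀ Y₁ : Matrix (Fin n → Fin 3 × Fin d) (Fin n → Fin 3 × Fin d) ℂ),
      Blk Prod.fst S (X₀ᴴ * X₀) → Blk Prod.fst S (X₁ᴴ * X₁) → Blk Prod.fst Sᶜ (Y₀ᴴ * Y₀) →
      Blk Prod.fst Sᶜ (Y₁ᴴ * Y₁) →
      traceNorm ((X₀ ⊗ₖ Y₀) * tpow n (((N⁻¹ : ℝ) : ℂ) • rho d (3 / 5) (cw d)) *
        (X₁ ⊗ₖ Y₁)ᴴ) ^ 4 ≤
        weight (tpow n (((N⁻¹ : ℝ) : ℂ) • rho d (3 / 5) (cw d))) X₀ Y₀ *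
        weight (tpow n (((N⁻¹ : ℝ) : ℂ) • rho d (3 / 5) (cw d))) X₀ Y₁ *
        weight (tpow n (((N⁻¹ : ℝ) : ℂ) • rho d (3 / 5) (cw d))) X₁ Y₀ *
        weight (tpow n (((N⁻¹ : ℝ) : ℂ) • rho d (3 / 5) (cw d))) X₁ Y₁ :=
    fun n S X₀ X₁ Y₀ Y₁ hX₀ hX₁ hY₀ hY₁ => test_smul hs.le X₀ X₁ Y₀ Y₁
      (letter_n h0 h1 hd0 hμ (cw_pos hd) (cw_mul hd) n S X₀ X₁ Y₀ Y₁ hX₀ hX₁ hY₀ hY₁)
  refine ⟨((N⁻¹ : ℝ) : ℂ) • rho d (3 / 5) (cw d), hP.smul hsc, ?_, ?_, ?_, ?_, ?_⟩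
  · have : pTrans (((N⁻¹ : ℝ) : ℂ) • rho d (3 / 5) (cw d)) =
        ((N⁻¹ : ℝ) : ℂ) • Matrix.of fun p q : (Fin 3 × Fin d) × (Fin 3 × Fin d) =>
          rho d (3 / 5) (cw d) (p.1, q.2) (q.1, p.2) := by
      ext p q
      rfl
    rw [this]
    exact hPt.smul hsc
  · rw [trace_smul, htr, smul_eq_mul, ← Complex.ofReal_mul, inv_mul_cancel₀ htp.ne']
    rfl
  · intro hsep
    have h2 := wit_sep hsep
    rw [wit_smul, wit_rho _ _ hd0, Complex.re_ofReal_mul, Complex.ofReal_re] at h2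
    have h3 : 3 * (d : ℝ) - 6 * (3 / 5) * d + 4 / 3 * d ^ 2 * (cw d 0 1 + cw d 1 2 + cw d 2 0) =
        -(d / 5) := by
      have e1 : cw d 0 1 = 1 / (10 * d) := if_pos rfl
      have e2 : cw d 1 2 = 1 / (10 * d) := if_pos rfl
      have e3 : cw d 2 0 = 1 / (10 * d) := if_pos rfl
      rw [e1, e2, e3]
      field_simp
      ring
    rw [h3] at h2
    nlinarith
  · exact fun n S X₀ X₁ Y₀ Y₁ hX₀ hX₁ hY₀ hY₁ => hno n S X₀ X₁ Y₀ Y₁ hX₀ hX₁ hY₀ hY₁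
  · intro E _ _ Ψ hΨ n ℓ hℓ T _ f g hL hS
    refine no_key Prod.fst Prod.fst Ψ (fun S X₀ X₁ Y₀ Y₁ hX₀ hX₁ hY₀ hY₁ => ?_) hℓ hL hS
    rw [hΨ]
    exact hno n S X₀ X₁ Y₀ Y₁ hX₀ hX₁ hY₀ hY₁

end Vale.Agent.P372.LD
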