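import Mathlib

open Matrix Kronecker
open scoped ComplexOrder MatrixOrder

set_option linter.unusedSectionVars false

namespace Vale.Agent.P372.LD

section gen

variable {X Y : Type} [Fintype X] [DecidableEq X] [Fintype Y] [DecidableEq Y]

/-- The operator `u ⊗ 1 + v ⊗ Φ` on the span of the `|x x⟩` plus `g x y |x y⟩⟨x y|`, `x ≠ y`. -/
noncomputable def mk (Y : Type) [Fintype Y] [DecidableEq Y] (u v : Matrix X X ℂ) (g : X → X → ℂ) :
    Matrix ((X × Y) × (X × Y)) ((X × Y) × (X × Y)) ℂ := fun p q =>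
  (if p.1.1 = p.2.1 ∧ q.1.1 = q.2.1 then
    u p.1.1 q.1.1 * (if p.1.2 = q.1.2 ∧ p.2.2 = q.2.2 then 1 else 0) +
    v p.1.1 q.1.1 * (if p.1.2 = p.2.2 ∧ q.1.2 = q.2.2 then (Fintype.card Y : ℂ)⁻¹ else 0) else 0) +
  if p = q ∧ p.1.1 ≠ p.2.1 then g p.1.1 p.2.1 else 0

def emb (u : Matrix X X ℂ) : Matrix (X × X) (X × X) ℂ := fun p q =>
  if p.1 = p.2 ∧ q.1 = q.2 then u p.1 q.1 else 0

def dg (g : X → X → ℂ) : Matrix (X × X) (X × X) ℂ :=
  diagonal fun p => if p.1 ≠ p.2 then g p.1 p.2 else 0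

/-- The projection onto the maximally entangled vector. -/
noncomputable def phi (Y : Type) [Fintype Y] [DecidableEq Y] : Matrix (Y × Y) (Y × Y) ℂ := fun p q =>
  if p.1 = p.2 ∧ q.1 = q.2 then (Fintype.card Y : ℂ)⁻¹ else 0

def rearr (X Y : Type) : (X × Y) × (X × Y) ≃ (X × X) × (Y × Y) :=
  Equiv.prodProdProdComm X Y X Y

theorem mk_eq (u v : Matrix X X ℂ) (g : X → X → ℂ) :
    mk Y u v g = (emb u ⊗ₖ (1 : Matrix (Y × Y) (Y × Y) ℂ) + emb v ⊗ₖ phi Y +
      dg g ⊗ₖ (1 : Matrix (Y × Y) (Y × Y) ℂ)).submatrix (rearr X Y) (rearr X Y) := by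
  ext ⟨⟨x, s⟩, ⟨y, t⟩⟩ ⟨⟨x', s'⟩, ⟨y', t'⟩⟩
  simp only [mk, submatrix_apply, Matrix.add_apply, kroneckerMap_apply, rearr,
    Equiv.prodProdProdComm_apply, emb, phi, dg, diagonal_apply, Matrix.one_apply, Prod.mk.injEq]
  by_cases h1 : x = y ∧ x' = y'
  · simp [h1]
  · by_cases h3 : (x = x' ∧ s = s') ∧ (y = y' ∧ t = t')
    · obtain ⟨⟨rfl, rfl⟩, ⟨rfl, rfl⟩⟩ := h3
      have h4 : ¬ x = y := fun h => h1 ⟨h, h⟩
      simp [h4]
    · have h5 : ¬ (((x = x' ∧ s = s') ∧ (y = y' ∧ t = t')) ∧ x ≠ y) := fun h => h3 h.1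
      simp only [h1, if_false, zero_mul, zero_add, add_zero, h5]
      by_cases h6 : x = x' ∧ y = y'
      · have h7 : ¬ (s = s' ∧ t = t') := fun h => h3 ⟨⟨h6.1, h.1⟩, ⟨h6.2, h.2⟩⟩
        simp [h7]
      · simp [h6]

theorem emb_mul (u u' : Matrix X X ℂ) : emb u * emb u' = emb (u * u') := by
  ext ⟨a, b⟩ ⟨c, d⟩
  simp only [emb, Matrix.mul_apply, Fintype.sum_prod_type]
  by_cases h : a = b ∧ c = d
  · obtain ⟨rfl, rfl⟩ := h
    simp only [true_and, and_true, and_self, if_true]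
    refine Finset.sum_congr rfl fun x _ => ?_
    rw [Finset.sum_eq_single x]
    · simp
    · intro y _ hy
      rw [if_neg (Ne.symm hy), zero_mul]
    · simp
  · rw [if_neg h]
    refine Finset.sum_eq_zero fun x _ => Finset.sum_eq_zero fun y _ => ?_
    by_cases h1 : a = b
    · have h2 : ¬ c = d := fun h' => h ⟨h1, h'⟩
      simp [h2]
    · simp [h1]

theorem emb_mul_dg (u : Matrix X X ℂ) (g : X → X → ℂ) : emb u * dg g = 0 := by
  ext ⟨a, b⟩ ⟨c, d⟩
  simp only [dg, mul_diagonal, emb, Matrix.zero_apply]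
  by_cases h : c = d <;> simp [h]

theorem dg_mul_emb (u : Matrix X X ℂ) (g : X → X → ℂ) : dg g * emb u = 0 := by
  ext ⟨a, b⟩ ⟨c, d⟩
  simp only [dg, diagonal_mul, emb, Matrix.zero_apply]
  by_cases h : a = b <;> simp [h]

theorem dg_mul_dg (g g' : X → X → ℂ) : dg g * dg g' = dg (fun x y => g x y * g' x y) := by
  simp only [dg, diagonal_mul_diagonal]
  congr 1
  funext p
  split_ifs <;> simp

theorem phi_mul [Nonempty Y] : phi Y * phi Y = phi Y := by
  ext ⟨a, b⟩ ⟨c, d⟩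
  have hcard : (Fintype.card Y : ℂ) ≠ 0 := by exact_mod_cast Fintype.card_ne_zero
  simp only [phi, Matrix.mul_apply, Fintype.sum_prod_type]
  by_cases h : a = b ∧ c = d
  · obtain ⟨rfl, rfl⟩ := h
    simp only [true_and, and_true, and_self, if_true]
    have : ∀ x : Y, ∑ y : Y, (if x = y then (Fintype.card Y : ℂ)⁻¹ else 0) *
        (if x = y then (Fintype.card Y : ℂ)⁻¹ else 0) = (Fintype.card Y : ℂ)⁻¹ *
          (Fintype.card Y : ℂ)⁻¹ := by
      intro x
      rw [Finset.sum_eq_single x]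
      · simp
      · intro y _ hy
        rw [if_neg (Ne.symm hy), zero_mul]
      · simp
    simp only [this, Finset.sum_const, Finset.card_univ, nsmul_eq_mul]
    field_simp
  · rw [if_neg h]
    refine Finset.sum_eq_zero fun x _ => Finset.sum_eq_zero fun y _ => ?_
    by_cases h1 : a = b
    · have h2 : ¬ c = d := fun h' => h ⟨h1, h'⟩
      simp [h2]
    · simp [h1]

theorem emb_add (u u' : Matrix X X ℂ) : emb (u + u') = emb u + emb u' := by
  ext p q
  simp only [emb, Matrix.add_apply]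
  split_ifs <;> simp

theorem mk_mul [Nonempty Y] (u v u' v' : Matrix X X ℂ) (g g' : X → X → ℂ) :
    mk Y u v g * mk Y u' v' g' =
      mk Y (u * u') (u * v' + v * u' + v * v') (fun x y => g x y * g' x y) := by
  rw [mk_eq, mk_eq, mk_eq, Matrix.submatrix_mul_equiv]
  congr 1
  simp only [Matrix.add_mul, Matrix.mul_add, ← mul_kronecker_mul, emb_mul, emb_mul_dg, dg_mul_emb,
    dg_mul_dg, Matrix.mul_one, Matrix.one_mul, phi_mul, zero_kronecker, emb_add, add_kronecker]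
  abel

theorem mk_add (u v u' v' : Matrix X X ℂ) (g g' : X → X → ℂ) :
    mk Y u v g + mk Y u' v' g' = mk Y (u + u') (v + v') (fun x y => g x y + g' x y) := by
  ext p q
  simp only [mk, Matrix.add_apply]
  split_ifs <;> ring

theorem mk_congr {u v : Matrix X X ℂ} {g g' : X → X → ℂ} (h : ∀ x y, x ≠ y → g x y = g' x y) :
    mk Y u v g = mk Y u v g' := by
  ext p q
  simp only [mk]
  congr 1
  split_ifs with h1
  · exact h _ _ h1.2
  · rfl

theorem mk_conjTranspose (u v : Matrix X X ℂ) (g : X → X → ℂ) :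
    (mk Y u v g)ᴴ = mk Y uᴴ vᴴ (fun x y => star (g x y)) := by
  ext p q
  simp only [mk, conjTranspose_apply]
  by_cases h : p = q
  · subst h
    split_ifs <;> simp_all
  · have h' : ¬ q = p := fun h' => h h'.symm
    simp only [h, h', false_and, if_false, add_zero]
    have e1 : (q.1.1 = q.2.1 ∧ p.1.1 = p.2.1) ↔ (p.1.1 = p.2.1 ∧ q.1.1 = q.2.1) := and_comm
    have e2 : (q.1.2 = p.1.2 ∧ q.2.2 = p.2.2) ↔ (p.1.2 = q.1.2 ∧ p.2.2 = q.2.2) := by
      constructor <;> rintro ⟨h1, h2⟩ <;> exact ⟨h1.symm, h2.symm⟩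
    have e3 : (q.1.2 = q.2.2 ∧ p.1.2 = p.2.2) ↔ (p.1.2 = p.2.2 ∧ q.1.2 = q.2.2) := and_comm
    simp only [e1, e2, e3]
    split_ifs <;> simp

end gen

end Vale.Agent.P372.LD
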