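import Vale.Agent.P372.H268.Data

open Matrix Kronecker
open scoped ComplexOrder MatrixOrder

set_option linter.unusedSectionVars false
set_option linter.unusedSimpArgs false

namespace Vale.Agent.P372.LD

variable {d : ℕ} {θ : ℝ} {c : Fin 3 → Fin 3 → ℝ}

/-- The exchange of Alice and Bob on different letters. -/
noncomputable def swc (d : ℕ) : Matrix ((Fin 3 × Fin d) × (Fin 3 × Fin d))
    ((Fin 3 × Fin d) × (Fin 3 × Fin d)) ℂ := fun p q =>
  if q = p.swap ∧ p.1.1 ≠ p.2.1 then 1 else 0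

theorem swc_herm : (swc d)ᴴ = swc d := by
  ext p q
  simp only [swc, conjTranspose_apply]
  have : (p = q.swap ∧ q.1.1 ≠ q.2.1) ↔ (q = p.swap ∧ p.1.1 ≠ p.2.1) := by
    constructor
    · rintro ⟨rfl, h⟩
      exact ⟨(Prod.swap_swap q).symm, fun h' => h h'.symm⟩
    · rintro ⟨rfl, h⟩
      exact ⟨(Prod.swap_swap p).symm, fun h' => h h'.symm⟩
  simp only [this]
  split_ifs <;> simp

theorem swc_mul : swc d * swc d = diagonal fun p => if p.1.1 ≠ p.2.1 then 1 else 0 := by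
  ext p q
  rw [Matrix.mul_apply, Finset.sum_eq_single p.swap]
  · simp only [swc, Prod.swap_swap, true_and, diagonal_apply, Prod.fst_swap, Prod.snd_swap]
    by_cases h : p.1.1 = p.2.1
    · simp [h]
    · have h' : ¬ p.2.1 = p.1.1 := fun h' => h h'.symm
      by_cases hq : q = p
      · simp [hq, h, h']
      · have hq' : ¬ p = q := fun h => hq h.symm
        simp [hq, hq']
  · intro b _ hb
    simp [swc, hb]
  · simp

theorem one_add_swc_psd : (1 + swc d).PosSemidef := by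
  have e : (1 : Matrix ((Fin 3 × Fin d) × (Fin 3 × Fin d)) ((Fin 3 × Fin d) × (Fin 3 × Fin d)) ℂ) +
      swc d = ((1 / 2 : ℝ) : ℂ) • ((1 + swc d)ᴴ * (1 + swc d) +
        diagonal fun p : (Fin 3 × Fin d) × (Fin 3 × Fin d) =>
          ((if p.1.1 ≠ p.2.1 then 0 else 1 : ℝ) : ℂ)) := by
    rw [conjTranspose_add, conjTranspose_one, swc_herm, Matrix.add_mul, Matrix.mul_add,
      Matrix.mul_add, swc_mul, Matrix.one_mul, Matrix.mul_one, Matrix.one_mul]
    ext p q
    simp only [Matrix.add_apply, Matrix.smul_apply, smul_eq_mul, diagonal_apply, Matrix.one_apply]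
    split_ifs <;> push_cast <;> ring
  rw [e]
  refine PosSemidef.smul ((posSemidef_conjTranspose_mul_self _).add
    (PosSemidef.diagonal fun p => ?_)) (Complex.zero_le_real.mpr (by norm_num))
  refine Complex.zero_le_real.mpr ?_
  split_ifs <;> norm_num

/-- The diagonal entries of the state. -/
noncomputable def dgs (c : Fin 3 → Fin 3 → ℝ) (p : (Fin 3 × Fin d) × (Fin 3 × Fin d)) : ℝ :=
  if p.1.1 = p.2.1 then 1 else c p.1.1 p.2.1

theorem pt_rho (p q : (Fin 3 × Fin d) × (Fin 3 × Fin d)) :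
    rho d θ c (p.1, q.2) (q.1, p.2) = (if p = q then (dgs c p : ℂ) else 0) +
      ((θ / d : ℝ) : ℂ) * swc d p q := by
  obtain ⟨⟨x, s⟩, ⟨y, t⟩⟩ := p
  obtain ⟨⟨x', s'⟩, ⟨y', t'⟩⟩ := q
  simp only [rho, mk, swc, dgs, Prod.mk.injEq, Prod.swap_prod_mk, Fintype.card_fin]
  by_cases h1 : x = y' ∧ x' = y
  · obtain ⟨rfl, rfl⟩ := h1
    by_cases h2 : x = x'
    · subst h2
      have e : (s = s' ∧ t' = t) ↔ (s = s' ∧ t = t') := by
        constructor <;> rintro ⟨h1, h2⟩ <;> exact ⟨h1, h2.symm⟩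
      simp [Xa, e]
    · have h3 : ¬ x' = x := fun h => h2 h.symm
      have e : (s = t' ∧ s' = t) ↔ (s' = t ∧ t' = s) := by
        constructor <;> rintro ⟨h1, h2⟩ <;> exact ⟨h2.symm ▸ rfl, h1.symm ▸ rfl⟩
      simp only [Xa, h2, h3, Matrix.one_apply, e]
      simp [h2, h3]
      split_ifs <;> simp [div_eq_mul_inv]
  · have h2 : ¬ (((x' = y ∧ s' = t) ∧ y' = x ∧ t' = s) ∧ x ≠ y) := fun h => h1 ⟨h.1.2.1.symm, h.1.1.1⟩
    have h2' : ¬ ((x' = y ∧ s' = t) ∧ y' = x ∧ t' = s) := fun h => h1 ⟨h.2.1.symm, h.1.1⟩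
    simp only [h1, if_false, zero_add, h2', false_and, mul_zero, add_zero]
    by_cases h3 : (x = x' ∧ s = s') ∧ y = y' ∧ t = t'
    · obtain ⟨⟨rfl, rfl⟩, rfl, rfl⟩ := h3
      have h4 : ¬ x = y := fun h => h1 ⟨h, h⟩
      simp [h4]
    · have h4 : ¬ (((x = x' ∧ s = s') ∧ y' = y ∧ t' = t) ∧ x ≠ y') := by
        rintro ⟨⟨h5, h6, h7⟩, _⟩
        exact h3 ⟨h5, h6.symm, h7.symm⟩
      rw [if_neg h3, if_neg h4]

theorem pt_posDef (h0 : 0 ≤ θ) (h1 : 2 * θ < d) (hc : ∀ x y, 0 < c x y)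
    (hcc : ∀ x y, x ≠ y → c x y * c y x = 1 / 4) :
    (Matrix.of fun p q : (Fin 3 × Fin d) × (Fin 3 × Fin d) =>
      rho d θ c (p.1, q.2) (q.1, p.2)).PosDef := by
  have hd : (0 : ℝ) < d := by linarith
  have hf : ∀ p : (Fin 3 × Fin d) × (Fin 3 × Fin d), 0 < dgs c p := by
    intro p
    unfold dgs
    split_ifs
    · norm_num
    · exact hc _ _
  have e : (Matrix.of fun p q : (Fin 3 × Fin d) × (Fin 3 × Fin d) =>
      rho d θ c (p.1, q.2) (q.1, p.2)) = diagonal (fun p => (((1 - 2 * θ / d) * dgs c p : ℝ) : ℂ)) +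
      ((2 * θ / d : ℝ) : ℂ) • ((diagonal fun p => ((√(dgs c p) : ℝ) : ℂ)) * (1 + swc d) *
        (diagonal fun p => ((√(dgs c p) : ℝ) : ℂ))ᴴ) := by
    ext p q
    rw [Matrix.of_apply, pt_rho, diagonal_conjTranspose, Matrix.add_apply, Matrix.smul_apply,
      mul_diagonal, diagonal_mul, Matrix.add_apply]
    simp only [Pi.star_apply, smul_eq_mul, diagonal_apply, Matrix.one_apply, swc]
    have hs : star ((√(dgs c q) : ℝ) : ℂ) = ((√(dgs c q) : ℝ) : ℂ) := by simp
    rw [hs]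
    by_cases hpq : p = q
    · subst hpq
      have h2 : ¬ (p = p.swap ∧ p.1.1 ≠ p.2.1) := by
        rintro ⟨h3, h4⟩
        apply h4
        have := congrArg (fun r => r.1.1) h3
        simpa using this
      simp only [if_true, h2, if_false, mul_zero, add_zero, mul_one]
      have h3 : (√(dgs c p) * √(dgs c p) : ℝ) = dgs c p := Real.mul_self_sqrt (hf p).le
      have h4 : ((√(dgs c p) : ℝ) : ℂ) * ((√(dgs c p) : ℝ) : ℂ) = (dgs c p : ℂ) := by
        exact_mod_cast h3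
      rw [h4]
      push_cast
      ring
    · rw [if_neg hpq, if_neg hpq]
      by_cases h2 : q = p.swap ∧ p.1.1 ≠ p.2.1
      · obtain ⟨rfl, h3⟩ := h2
        rw [if_pos ⟨rfl, h3⟩, if_neg hpq]
        have h4 : (√(dgs c p) * √(dgs c p.swap) : ℝ) = 1 / 2 := by
          rw [← Real.sqrt_mul (hf p).le]
          have h5 : dgs c p * dgs c p.swap = (1 / 2) ^ 2 := by
            have h6 : ¬ p.2.1 = p.1.1 := fun h => h3 h.symm
            simp only [dgs, Prod.fst_swap, Prod.snd_swap, h3, h6, if_false]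
            rw [hcc _ _ h3]
            norm_num
          rw [h5, Real.sqrt_sq (by norm_num)]
        have h5 : ((√(dgs c p) : ℝ) : ℂ) * ((√(dgs c p.swap) : ℝ) : ℂ) = ((1 / 2 : ℝ) : ℂ) := by
          rw [← Complex.ofReal_mul, h4]
        rw [zero_add, zero_add, mul_one, zero_add, mul_one, h5]
        push_cast
        ring
      · rw [if_neg h2]
        simp [hpq]
  rw [e]
  refine PosDef.add_posSemidef (PosDef.diagonal fun p => ?_) (PosSemidef.smul
    (one_add_swc_psd.mul_mul_conjTranspose_same _) (Complex.zero_le_real.mpr (by positivity)))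
  refine Complex.zero_lt_real.mpr (mul_pos ?_ (hf p))
  rw [sub_pos, div_lt_one hd]
  exact h1

end Vale.Agent.P372.LD
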